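import Mathlib

/-!
# P336: random allowed classes of the views
-/

open Finset

namespace Vale.Agent.P336.R2.H444

open scoped Classical in
/-- The number of colourings with colour `i` on `S`. -/
theorem sum_all {ι : Type} [Fintype ι] {P : ℕ} (hP : 0 < P) (i : Fin P) (S : Finset ι) :
    (∑ c : ι → Fin P, if ∀ t ∈ S, c t = i then (1 : ℝ) else 0) =
      (P : ℝ) ^ Fintype.card ι * (1 / P) ^ S.card := by
  have h1 : ∀ c : ι → Fin P, (if ∀ t ∈ S, c t = i then (1 : ℝ) else 0) =
      ∏ t, (fun (t : ι) (j : Fin P) => if t ∈ S then (if j = i then (1 : ℝ) else 0) else 1)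
        t (c t) := by
    intro c
    by_cases h : ∀ t ∈ S, c t = i
    · rw [if_pos h]
      refine (prod_eq_one fun t _ => ?_).symm
      by_cases ht : t ∈ S
      · simp [ht, h t ht]
      · simp [ht]
    · rw [if_neg h]
      push Not at h
      obtain ⟨t, ht, hti⟩ := h
      refine (prod_eq_zero (mem_univ t) ?_).symm
      simp [ht, hti]
  have h0 := prod_univ_sum (fun _ : ι => (univ : Finset (Fin P)))
    (fun (t : ι) (j : Fin P) => if t ∈ S then (if j = i then (1 : ℝ) else 0) else 1)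
  rw [Fintype.piFinset_univ] at h0
  rw [sum_congr rfl fun c _ => h1 c, ← h0]
  have hP0 : (P : ℝ) ≠ 0 := by exact_mod_cast hP.ne'
  have h2 : ∀ t : ι, ∑ j : Fin P, (if t ∈ S then (if j = i then (1 : ℝ) else 0) else 1) =
      P * if t ∈ S then (1 / P : ℝ) else 1 := by
    intro t
    by_cases ht : t ∈ S
    · simp only [ht, if_true]
      rw [Finset.sum_ite_eq' univ i, if_pos (mem_univ i)]
      field_simp
    · simp [ht]
  rw [prod_congr rfl fun t _ => h2 t, prod_mul_distrib, prod_const, card_univ, prod_ite_mem,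
    univ_inter, prod_const]

open scoped Classical in
/-- Each view gets one allowed class; the positions of block `i` all of whose views are allowed
class `i` are many. -/
theorem exists_allowed {P m k w : ℕ} (hP : 1 ≤ P) (hk1 : 1 ≤ k) (hw1 : 1 ≤ w) {ι : Type}
    [Fintype ι] (V : ι → Finset (Fin P × Fin m)) (hk : ∀ t, (V t).card ≤ k)
    (hw : ∀ v, (Finset.univ.filter fun t => v ∈ V t).card ≤ w)
    (hkm : 4 * w * k * P ^ (2 * w + 1) < m) :
    ∃ (c : ι → Fin P) (A : Fin P → Finset (Fin m)),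
      (∀ i, m ≤ 2 * P ^ w * (A i).card) ∧ ∀ t i, i ≠ c t → ∀ v ∈ A i, (i, v) ∉ V t := by
  have hP0 : (0 : ℝ) < P := by exact_mod_cast hP
  have hP1 : (1 : ℝ) ≤ P := by exact_mod_cast hP
  have hm : 0 < m := by omega
  have hm0 : (0 : ℝ) < m := by exact_mod_cast hm
  obtain ⟨N, hN⟩ : ∃ N : Fin P → Fin m → Finset ι,
      ∀ i v, N i v = univ.filter fun t => (i, v) ∈ V t := ⟨_, fun _ _ => rfl⟩
  have hNw : ∀ i v, (N i v).card ≤ w := fun i v => by rw [hN]; exact hw (i, v)
  obtain ⟨q, hq⟩ : ∃ q : ℝ, q = 1 / P := ⟨_, rfl⟩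
  have hq0 : 0 < q := by rw [hq]; positivity
  have hq1 : q ≤ 1 := by rw [hq, div_le_one hP0]; exact hP1
  obtain ⟨T, hT⟩ : ∃ T : ℝ, T = (P : ℝ) ^ Fintype.card ι := ⟨_, rfl⟩
  have hT0 : 0 < T := by rw [hT]; positivity
  -- the indicator
  obtain ⟨Y, hY⟩ : ∃ Y : Fin P → Fin m → (ι → Fin P) → ℝ,
      ∀ i v c, Y i v c = if ∀ t ∈ N i v, c t = i then 1 else 0 := ⟨_, fun _ _ _ => rfl⟩
  have hE1 : ∀ i v, ∑ c, Y i v c = T * q ^ (N i v).card := fun i v => by
    rw [hT, hq, ← sum_all hP i (N i v)]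
    exact sum_congr rfl fun c _ => hY i v c
  have hE2 : ∀ i u v, ∑ c, Y i u c * Y i v c = T * q ^ (N i u ∪ N i v).card := by
    intro i u v
    rw [hT, hq, ← sum_all hP i (N i u ∪ N i v)]
    refine sum_congr rfl fun c _ => ?_
    have hU : (∀ t ∈ N i u ∪ N i v, c t = i) ↔
        (∀ t ∈ N i u, c t = i) ∧ ∀ t ∈ N i v, c t = i := by
      constructor
      · intro h
        exact ⟨fun t ht => h t (mem_union_left _ ht), fun t ht => h t (mem_union_right _ ht)⟩
      · rintro ⟨h1, h2⟩ t ht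
        rcases mem_union.1 ht with ht | ht
        · exact h1 t ht
        · exact h2 t ht
    rw [hY, hY]
    by_cases hA : ∀ t ∈ N i u, c t = i
    · by_cases hB : ∀ t ∈ N i v, c t = i
      · rw [if_pos hA, if_pos hB, if_pos (hU.2 ⟨hA, hB⟩), mul_one]
      · rw [if_neg hB, if_neg (fun h => hB (hU.1 h).2), mul_zero]
    · rw [if_neg hA, if_neg (fun h => hA (hU.1 h).1), zero_mul]
  obtain ⟨X, hX⟩ : ∃ X : Fin P → (ι → Fin P) → ℝ, ∀ i c, X i c = ∑ v, Y i v c :=
    ⟨_, fun _ _ => rfl⟩
  obtain ⟨mu, hmu⟩ : ∃ mu : Fin P → ℝ, ∀ i, mu i = ∑ v : Fin m, q ^ (N i v).card :=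
    ⟨_, fun _ => rfl⟩
  have hEX : ∀ i, ∑ c, X i c = T * mu i := by
    intro i
    simp only [hX, hmu, mul_sum]
    rw [sum_comm]
    exact sum_congr rfl fun v _ => hE1 i v
  have hEXX : ∀ i, ∑ c, (X i c) ^ 2 = ∑ u, ∑ v, T * q ^ (N i u ∪ N i v).card := by
    intro i
    have : ∀ c, (X i c) ^ 2 = ∑ u, ∑ v, Y i u c * Y i v c := by
      intro c
      rw [hX, sq, sum_mul_sum]
    rw [sum_congr rfl fun c _ => this c, sum_comm]
    refine sum_congr rfl fun u _ => ?_
    rw [sum_comm]
    exact sum_congr rfl fun v _ => hE2 i u v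
  have hmuge : ∀ i, m * q ^ w ≤ mu i := by
    intro i
    rw [hmu]
    have h1 : ∑ _v : Fin m, q ^ w ≤ ∑ v : Fin m, q ^ (N i v).card :=
      sum_le_sum fun v _ => pow_le_pow_of_le_one hq0.le hq1 (hNw i v)
    rw [sum_const, card_univ, Fintype.card_fin, nsmul_eq_mul] at h1
    exact h1
  have hcardT : (∑ _c : ι → Fin P, (1 : ℝ)) = T := by
    rw [sum_const, card_univ, nsmul_eq_mul, mul_one, Fintype.card_fun, Fintype.card_fin, hT]
    push_cast
    rfl
  -- variance
  have hvar : ∀ i, ∑ c, (X i c - mu i) ^ 2 ≤ T * (m * (w * k)) := by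
    intro i
    have h1 : ∑ c, (X i c - mu i) ^ 2 = ∑ c, (X i c) ^ 2 - T * mu i ^ 2 := by
      have : ∀ c, (X i c - mu i) ^ 2 = (X i c) ^ 2 - 2 * mu i * X i c + mu i ^ 2 * 1 := by
        intro c
        ring
      rw [sum_congr rfl fun c _ => this c, sum_add_distrib, sum_sub_distrib, ← mul_sum,
        ← mul_sum, hEX, hcardT]
      ring
    have h2 : T * mu i ^ 2 = ∑ u, ∑ v, T * (q ^ (N i u).card * q ^ (N i v).card) := by
      rw [hmu, sq, sum_mul_sum, mul_sum]
      exact sum_congr rfl fun u _ => by rw [mul_sum]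
    rw [h1, hEXX, h2, ← sum_sub_distrib]
    have h3 : ∀ u ∈ (univ : Finset (Fin m)), ∑ v, T * q ^ (N i u ∪ N i v).card -
        ∑ v, T * (q ^ (N i u).card * q ^ (N i v).card) ≤ T * (w * k) := by
      intro u _
      rw [← sum_sub_distrib]
      have h4 : ∀ v ∈ (univ : Finset (Fin m)), T * q ^ (N i u ∪ N i v).card -
          T * (q ^ (N i u).card * q ^ (N i v).card) ≤
          T * if Disjoint (N i u) (N i v) then 0 else 1 := by
        intro v _
        rw [← mul_sub]
        refine mul_le_mul_of_nonneg_left ?_ hT0.le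
        split_ifs with hd
        · rw [card_union_of_disjoint hd, pow_add, sub_self]
        · have a1 : q ^ (N i u ∪ N i v).card ≤ 1 := pow_le_one₀ hq0.le hq1
          have a2 : 0 ≤ q ^ (N i u).card * q ^ (N i v).card := by positivity
          linarith
      refine (sum_le_sum h4).trans ?_
      rw [← mul_sum]
      refine mul_le_mul_of_nonneg_left ?_ hT0.le
      have h5 : (∑ v : Fin m, if Disjoint (N i u) (N i v) then (0 : ℝ) else 1) =
          ((univ : Finset (Fin m)).filter fun v => ¬ Disjoint (N i u) (N i v)).card := by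
        rw [card_filter]
        push_cast
        refine sum_congr rfl fun v _ => ?_
        by_cases hd : Disjoint (N i u) (N i v) <;> simp [hd]
      rw [h5]
      have h6 : ((univ : Finset (Fin m)).filter fun v => ¬ Disjoint (N i u) (N i v)) ⊆
          (N i u).biUnion fun t => ((V t).filter fun x => x.1 = i).image Prod.snd := by
        intro v hv
        rw [mem_filter] at hv
        obtain ⟨t, ht1, ht2⟩ := not_disjoint_iff.1 hv.2
        rw [mem_biUnion]
        refine ⟨t, ht1, mem_image.2 ⟨(i, v), ?_, rfl⟩⟩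
        rw [hN, mem_filter] at ht2
        rw [mem_filter]
        exact ⟨ht2.2, rfl⟩
      have h7 : ((N i u).biUnion fun t => ((V t).filter fun x => x.1 = i).image Prod.snd).card ≤
          (N i u).card * k := by
        refine card_biUnion_le_card_mul _ _ _ fun t _ => ?_
        exact (card_image_le.trans (card_filter_le _ _)).trans (hk t)
      have h8 : ((univ : Finset (Fin m)).filter fun v => ¬ Disjoint (N i u) (N i v)).card ≤
          w * k := ((card_le_card h6).trans h7).trans (Nat.mul_le_mul_right _ (hNw i u))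
      exact_mod_cast h8
    refine (sum_le_sum h3).trans (le_of_eq ?_)
    rw [sum_const, card_univ, Fintype.card_fin, nsmul_eq_mul]
    ring
  -- a good colouring
  obtain ⟨c, hc⟩ : ∃ c : ι → Fin P, ∀ i, m * q ^ w / 2 ≤ X i c := by
    by_contra hcon
    push Not at hcon
    have hM : 0 < m * q ^ w / 2 := by positivity
    have h1 : ∀ c ∈ (univ : Finset (ι → Fin P)),
        (m * q ^ w / 2) ^ 2 ≤ ∑ i, (X i c - mu i) ^ 2 := by
      intro c _
      obtain ⟨i, hi⟩ := hcon c
      have h2 := hmuge i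
      have h3 : m * q ^ w / 2 ≤ mu i - X i c := by linarith
      calc (m * q ^ w / 2) ^ 2 ≤ (mu i - X i c) ^ 2 := pow_le_pow_left₀ hM.le h3 2
        _ = (X i c - mu i) ^ 2 := by ring
        _ ≤ _ := single_le_sum (f := fun i => (X i c - mu i) ^ 2) (fun i _ => sq_nonneg _)
            (mem_univ i)
    have h2 := sum_le_sum h1
    rw [sum_comm] at h2
    have h3 : ∑ i : Fin P, ∑ c, (X i c - mu i) ^ 2 ≤ P * (T * (m * (w * k))) := by
      refine (sum_le_sum fun i _ => hvar i).trans (le_of_eq ?_)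
      rw [sum_const, card_univ, Fintype.card_fin, nsmul_eq_mul]
    have h4 : (∑ _c : ι → Fin P, (m * q ^ w / 2) ^ 2) = T * (m * q ^ w / 2) ^ 2 := by
      rw [← hcardT, sum_mul]
      exact sum_congr rfl fun c _ => by rw [one_mul]
    rw [h4] at h2
    have h5 : (m * q ^ w / 2) ^ 2 ≤ P * (m * (w * k)) := by
      have h6 : T * (m * q ^ w / 2) ^ 2 ≤ T * (P * (m * (w * k))) := by
        calc T * (m * q ^ w / 2) ^ 2 ≤ P * (T * (m * (w * k))) := h2.trans h3
          _ = _ := by ring
      exact le_of_mul_le_mul_left h6 hT0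
    have h6 : (4 : ℝ) * w * k * P ^ (2 * w + 1) < m := by exact_mod_cast hkm
    have h7 : q ^ w * P ^ w = 1 := by
      rw [← mul_pow, hq, one_div_mul_cancel hP0.ne', one_pow]
    have h8 : (m : ℝ) ≤ 4 * w * k * P ^ (2 * w + 1) := by
      have h9 : (m * q ^ w / 2) ^ 2 * (4 * (P ^ w) ^ 2 / m) ≤
          P * (m * (w * k)) * (4 * (P ^ w) ^ 2 / m) :=
        mul_le_mul_of_nonneg_right h5 (by positivity)
      have h10 : (m * q ^ w / 2) ^ 2 * (4 * (P ^ w) ^ 2 / m) = m * (q ^ w * P ^ w) ^ 2 := by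
        field_simp
        norm_num
      have h11 : P * (m * (w * k)) * (4 * ((P : ℝ) ^ w) ^ 2 / m) =
          4 * w * k * P ^ (2 * w + 1) := by
        have h12 : (P : ℝ) ^ (2 * w + 1) = (P ^ w) ^ 2 * P := by ring
        rw [h12]
        field_simp
      rw [h10, h7, h11, one_pow, mul_one] at h9
      exact h9
    linarith
  have hXcard : ∀ i, X i c = ((univ.filter fun v => ∀ t ∈ N i v, c t = i).card : ℝ) := by
    intro i
    rw [hX, card_filter]
    push_cast
    exact sum_congr rfl fun v _ => hY i v c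
  refine ⟨c, fun i => univ.filter fun v => ∀ t ∈ N i v, c t = i, fun i => ?_,
    fun t i hi v hv hvt => ?_⟩
  · have h1 := hc i
    rw [hXcard] at h1
    have h7 : q ^ w * P ^ w = 1 := by
      rw [← mul_pow, hq, one_div_mul_cancel hP0.ne', one_pow]
    generalize (univ.filter fun v => ∀ t ∈ N i v, c t = i).card = a at h1
    have h2 : (m : ℝ) ≤ 2 * P ^ w * a := by
      calc (m : ℝ) = m * (q ^ w * P ^ w) := by rw [h7, mul_one]
        _ = 2 * P ^ w * (m * q ^ w / 2) := by ring
        _ ≤ 2 * P ^ w * a := mul_le_mul_of_nonneg_left h1 (by positivity)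
    exact_mod_cast h2
  · rw [mem_filter] at hv
    refine hi (hv.2 t ?_).symm
    rw [hN, mem_filter]
    exact ⟨mem_univ _, hvt⟩

end Vale.Agent.P336.R2.H444
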