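import Vale.Agent.P336.R2.H836.Spec

/-!
# P336: the value of a word is the form
-/

namespace Vale.Agent.P336.R2.H444

open Polynomial Finset

/-- The polynomial of a block of the word. -/
noncomputable def wordPoly (w : List Bool) (o m i : ℕ) : (ZMod 2)[X] :=
  ∑ j ∈ range m, C ((H836.bit w (o + i * m + j) : ℕ) : ZMod 2) * X ^ j

theorem cast_toNat_decide (n : ℕ) : (((decide (n % 2 = 1)).toNat : ℕ) : ZMod 2) = (n : ZMod 2) := by
  rcases Nat.mod_two_eq_zero_or_one n with h | h
  · have h1 : (n : ZMod 2) = 0 := by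
      rw [ZMod.natCast_eq_zero_iff]
      exact Nat.dvd_of_mod_eq_zero h
    rw [h1, h]
    rfl
  · have h1 : (n : ZMod 2) = 1 := by
      have h2 : ((n : ℕ) : ZMod 2) = ((1 : ℕ) : ZMod 2) := by
        rw [ZMod.natCast_eq_natCast_iff]
        exact h
      simpa using h2
    rw [h1, h]
    rfl

theorem bit_mulStep {w : List Bool} {o m h : ℕ} {c : List Bool} {i d : ℕ} (hd : d < h) :
    ((H836.bit (H836.mulStep w o m h c i) d : ℕ) : ZMod 2) =
      ∑ j ∈ range m, if j ≤ d then
        ((H836.bit w (o + i * m + j) : ℕ) : ZMod 2) * ((H836.bit c (d - j) : ℕ) : ZMod 2)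
        else 0 := by
  have h1 : H836.bit (H836.mulStep w o m h c i) d = (decide ((∑ j ∈ range m,
      if j ≤ d then H836.bit w (o + i * m + j) * H836.bit c (d - j) else 0) % 2 = 1)).toNat := by
    unfold H836.bit H836.mulStep
    rw [List.getD_eq_getElem _ _ (by simpa using hd), List.getElem_map, List.getElem_range]
    rfl
  rw [h1, cast_toNat_decide, Nat.cast_sum]
  refine Finset.sum_congr rfl fun j _ => ?_
  split_ifs with hj
  · rw [Nat.cast_mul]
  · rw [Nat.cast_zero]

theorem coeff_wordPoly_mul (w : List Bool) (o m i : ℕ) (Q : (ZMod 2)[X]) (d : ℕ) :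
    (wordPoly w o m i * Q).coeff d = ∑ j ∈ range m, if j ≤ d then
      ((H836.bit w (o + i * m + j) : ℕ) : ZMod 2) * Q.coeff (d - j) else 0 := by
  unfold wordPoly
  rw [Finset.sum_mul, Polynomial.finsetSum_coeff]
  refine Finset.sum_congr rfl fun j _ => ?_
  rw [mul_assoc, Polynomial.coeff_C_mul, Polynomial.coeff_X_pow_mul', mul_ite, mul_zero]

theorem bit_foldl (w : List Bool) (o m h : ℕ) (p : ℕ) : ∀ d, d < h →
    ((H836.bit ((List.range p).foldl (H836.mulStep w o m h) [true]) d : ℕ) : ZMod 2) =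
      (∏ i ∈ range p, wordPoly w o m i).coeff d := by
  induction p with
  | zero =>
    intro d _
    rw [List.range_zero, List.foldl_nil, Finset.range_zero, Finset.prod_empty,
      Polynomial.coeff_one]
    rcases d with _ | d
    · simp [H836.bit]
    · simp [H836.bit]
  | succ p ih =>
    intro d hd
    rw [List.range_succ, List.foldl_append, List.foldl_cons, List.foldl_nil, bit_mulStep hd,
      Finset.prod_range_succ, mul_comm (∏ i ∈ range p, wordPoly w o m i), coeff_wordPoly_mul]
    refine Finset.sum_congr rfl fun j _ => ?_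
    split_ifs with hj
    · rw [ih (d - j) (by omega)]
    · rfl

theorem bit_ofFn {N : ℕ} (u : Fin N → Bool) (i : ℕ) (hi : i < N) :
    H836.bit (List.ofFn u) i = (u ⟨i, hi⟩).toNat := by
  unfold H836.bit
  rw [List.getD_eq_getElem _ _ (by simpa using hi), List.getElem_ofFn]

theorem cast_toNat_mul (b : Bool) (a : ZMod 2) :
    ((b.toNat : ℕ) : ZMod 2) * a = if b = true then a else 0 := by
  cases b <;> simp

theorem C_toNat_mul (b : Bool) (a : (ZMod 2)[X]) :
    C ((b.toNat : ℕ) : ZMod 2) * a = if b = true then a else 0 := by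
  cases b <;> simp

/-- The value of a word whose first quarter has `p` ones is the form. -/
theorem value_eq {p m N : ℕ} (_hp : 1 ≤ p) (hm : m = N / 4 / p) (u : Fin N → Bool)
    (hq : ((List.ofFn u).take (N / 4)).count true = p)
    (h1 : ∀ d : Fin (N / 4), N / 4 + d < N)
    (h2 : ∀ v : Fin p × Fin m, 2 * (N / 4) + v.1 * m + v.2 < N) :
    ((H836.value (List.ofFn u) : ℕ) : ZMod 2) =
      H836.form (fun d : Fin (N / 4) => u ⟨N / 4 + d, h1 d⟩)
        (fun v : Fin p × Fin m => u ⟨2 * (N / 4) + v.1 * m + v.2, h2 v⟩) := by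
  unfold H836.value H836.form H836.coeffs
  rw [List.length_ofFn, hq, ← hm, Nat.cast_sum, Finset.sum_range]
  refine Finset.sum_congr rfl fun d _ => ?_
  rw [Nat.cast_mul, bit_ofFn u _ (h1 d), cast_toNat_mul, bit_foldl _ _ _ _ _ _ d.2]
  have h3 : (∏ i ∈ range p, wordPoly (List.ofFn u) (2 * (N / 4)) m i) =
      ∏ i : Fin p, H836.blockPoly
        (fun v : Fin p × Fin m => u ⟨2 * (N / 4) + v.1 * m + v.2, h2 v⟩) i := by
    rw [Finset.prod_range]
    refine Finset.prod_congr rfl fun i _ => ?_
    unfold wordPoly H836.blockPoly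
    rw [Finset.sum_range]
    refine Finset.sum_congr rfl fun j _ => ?_
    rw [bit_ofFn u _ (h2 (i, j))]
    exact C_toNat_mul _ _
  rw [h3]

end Vale.Agent.P336.R2.H444
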