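import Vale.Agent.P336.R2.H836.Blocks
import Vale.Agent.P336.R2.H836.Assembly
import Vale.Agent.P336.R2.H946.Families
import Vale.Agent.P336.R2.H842.NumBlocks

/-!
# P336: circuits whose bottom gates read few blocks, for the slices of the language
-/

namespace Vale.Agent.P336.R2.H444

open Finset H836

section

variable {N p m : ℕ}

/-- A bottom gate which does not read the changed variables keeps its value. -/
theorem gate_mix (hpm : p * m ≤ N / 4) (C : Circuit N) (b : Fin C.bottom) (i : Fin p)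
    (B : Finset (Fin m)) (hB : ∀ v ∈ B, ∀ l ∈ C.lits b, ¬ l.Reads (pos hpm (i, v)))
    (s : Fin (N / 4) → Bool) (x z : Fin p × Fin m → Bool) :
    (∃ l ∈ C.lits b, l.eval (wordOf N p m s (mix (emb i B) x z)) = true) ↔
      ∃ l ∈ C.lits b, l.eval (wordOf N p m s x) = true := by
  have h1 : ∀ l ∈ C.lits b, l.eval (wordOf N p m s (mix (emb i B) x z)) =
      l.eval (wordOf N p m s x) := by
    intro l hl
    refine l.eval_congr fun v hv => wordOf_mix hpm s x z _ v fun w hw hvw => ?_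
    obtain ⟨hw1, hw2⟩ := mem_emb.1 hw
    refine hB w.2 hw2 l hl ?_
    have h2 : (i, w.2) = w := by rw [← hw1]
    rw [h2, ← hvw]
    exact hv
  constructor
  · rintro ⟨l, hl, hle⟩
    exact ⟨l, hl, by rw [← h1 l hl]; exact hle⟩
  · rintro ⟨l, hl, hle⟩
    exact ⟨l, hl, by rw [h1 l hl]; exact hle⟩

/-- **Many middle gates, blocks.**  The slice of length `N` or its complement; for every middle
gate there are `g` sets in each of the `p` blocks of variables such that each bottom gate avoids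
all sets of one block of variables, or all sets with at most one exception in every block of
variables. -/
theorem many_gates_blocks {g a t : ℕ} (hp1 : 1 ≤ p) (hm : m = N / 4 / p) (hpm : p * m ≤ N / 4)
    (hp : p ≤ N / 4) (hm1 : 1 ≤ m) (ha : a ≤ m) (hat : 2 ^ p * t + p ≤ a) (htg : t ≤ g ^ p)
    (C : Circuit N)
    (hC : ∀ j ∈ C.top, ∃ B : Fin p → Fin g → Finset (Fin m), (∀ i r, a ≤ (B i r).card) ∧
      ∀ b ∈ C.conj j,
        (∃ i, ∀ r, ∀ v ∈ B i r, ∀ l ∈ C.lits b, ¬ l.Reads (pos hpm (i, v))) ∨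
        (∃ ρ : Fin p → Fin g, ∀ i r, r ≠ ρ i → ∀ v ∈ B i r, ∀ l ∈ C.lits b,
          ¬ l.Reads (pos hpm (i, v))))
    (e : Bool) (hf : ∀ x, C.Accepts x ↔ slice lang N x = e) :
    (1 : ℝ) ≤ (2 * C.middle + 1) * (2 * (1 / 2 : ℝ) ^ t) := by
  have h0 := core_blocks (γ := Fin C.middle) (a := a) (g := g) (t := t) (h := N / 4) hp1 hpm hm1
    ha hat htg
    (fun j s x => j ∈ C.top ∧ ∀ b ∈ C.conj j, ∃ l ∈ C.lits b, l.eval (wordOf N p m s x) = true)
    ?_ (if e = true then 1 else 0) ?_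
  · rw [Fintype.card_fin] at h0
    exact h0
  · intro j
    by_cases hj : j ∈ C.top
    · obtain ⟨B, hB, hr⟩ := hC j hj
      refine ⟨B, fun i s x => ∀ b ∈ C.conj j,
        (∀ r, ∀ v ∈ B i r, ∀ l ∈ C.lits b, ¬ l.Reads (pos hpm (i, v))) →
        ∃ l ∈ C.lits b, l.eval (wordOf N p m s x) = true,
        fun ρ s x => ∀ b ∈ C.conj j,
        (∀ i r, r ≠ ρ i → ∀ v ∈ B i r, ∀ l ∈ C.lits b, ¬ l.Reads (pos hpm (i, v))) →
        ∃ l ∈ C.lits b, l.eval (wordOf N p m s x) = true, hB, ?_, ?_, ?_⟩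
      · intro i r s x z
        refine forall_congr' fun b => forall_congr' fun _ => forall_congr' fun h => ?_
        exact gate_mix hpm C b i (B i r) (h r) s x z
      · intro ρ i r hne s x z
        refine forall_congr' fun b => forall_congr' fun _ => forall_congr' fun h => ?_
        exact gate_mix hpm C b i (B i r) (h i r hne) s x z
      · intro s x
        constructor
        · rintro ⟨_, h⟩
          exact ⟨fun i b hb _ => h b hb, fun ρ b hb _ => h b hb⟩
        · rintro ⟨h1, h2⟩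
          refine ⟨hj, fun b hb => ?_⟩
          rcases hr b hb with ⟨i, hi⟩ | ⟨ρ, hρ⟩
          · exact h1 i b hb hi
          · exact h2 ρ b hb hρ
    · refine ⟨fun _ _ => Finset.univ, fun _ _ _ => False, fun _ _ _ => True, fun i r => ?_,
        fun _ _ _ _ _ => Iff.rfl, fun _ _ _ _ _ _ _ => Iff.rfl, ?_⟩
      · rw [Finset.card_univ, Fintype.card_fin]
        exact ha
      · intro s x
        constructor
        · exact fun h => absurd h.1 hj
        · exact fun h => (h.1 ⟨0, hp1⟩).elim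
  · intro s x
    have h1 : (∃ j : Fin C.middle, j ∈ C.top ∧ ∀ b ∈ C.conj j, ∃ l ∈ C.lits b,
        l.eval (wordOf N p m s x) = true) ↔ C.Accepts (wordOf N p m s x) := Iff.rfl
    rw [h1, hf]
    have h2 := mem_lang_wordOf hp1 hm hpm hp s x
    classical
    unfold slice
    cases e
    · rw [decide_eq_false_iff_not, h2, if_neg (by simp)]
      rcases zmod2_cases (form s x) with h3 | h3 <;> rw [h3] <;> simp
    · rw [decide_eq_true_iff, h2, if_pos rfl]

end

/-- The size from the correlation bound. -/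
theorem size_of_corr {S t : ℕ} (ht : 3 ≤ t) (h : (1 : ℝ) ≤ (2 * S + 1) * (2 * (1 / 2 : ℝ) ^ t)) :
    (2 : ℝ) ^ t ≤ 8 * S := by
  have h1 : (2 : ℝ) ^ t * (1 / 2 : ℝ) ^ t = 1 := by
    rw [← mul_pow]
    norm_num
  have h2 : (8 : ℝ) ≤ 2 ^ t := by
    calc (8 : ℝ) = 2 ^ 3 := by norm_num
      _ ≤ 2 ^ t := pow_le_pow_right₀ (by norm_num) ht
  have h3 : (2 : ℝ) ^ t ≤ (2 * S + 1) * 2 := by
    calc (2 : ℝ) ^ t = 2 ^ t * 1 := (mul_one _).symm
      _ ≤ 2 ^ t * ((2 * S + 1) * (2 * (1 / 2 : ℝ) ^ t)) :=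
          mul_le_mul_of_nonneg_left h (by positivity)
      _ = (2 * S + 1) * 2 * (2 ^ t * (1 / 2 : ℝ) ^ t) := by ring
      _ = (2 * S + 1) * 2 := by rw [h1, mul_one]
  linarith

/-- **Blocks.**  For every `p` there is `c > 0` such that every depth-three circuit for the slice
of length `N` of the language or for its complement, in which for each middle gate the variables
are partitioned into blocks of size at most `s` such that every bottom gate of this middle gate
reads at most `p` blocks, has at least `2 ^ (c (N / s) ^ p)` middle gates, as long as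
`N ^ p ≤ s ^ (p + 1)` and `s ≤ c N`. -/
theorem blocks_main (p : ℕ) (hp : 1 ≤ p) : ∃ c : ℝ, 0 < c ∧ ∀ N s : ℕ, 1 ≤ N →
    N ^ p ≤ s ^ (p + 1) → (s : ℝ) ≤ c * N → ∀ C : Circuit N, (∀ j ∈ C.top, C.Blocked p s j) →
    ((∀ x, C.Accepts x ↔ slice lang N x = true) ∨ (∀ x, C.Accepts x ↔ slice lang N x = false)) →
    (2 : ℝ) ^ (c * ((N : ℝ) / s) ^ p) ≤ C.middle := by
  obtain ⟨c, hc, h⟩ := H842.numerics_blocks p hp
  refine ⟨c, hc, fun N s hN hNs hsN C hB hf => ?_⟩
  obtain ⟨g, a, t, hpm, hpN, hm1, ham, hs1, hsN', hg, ha, hat, htg, ht3, hct⟩ := h N s hN hNs hsN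
  have hC : ∀ j ∈ C.top, ∃ B : Fin p → Fin g → Finset (Fin (N / 4 / p)),
      (∀ i r, a ≤ (B i r).card) ∧ ∀ b ∈ C.conj j,
        (∃ i, ∀ r, ∀ v ∈ B i r, ∀ l ∈ C.lits b, ¬ l.Reads (pos hpm (i, v))) ∨
        (∃ ρ : Fin p → Fin g, ∀ i r, r ≠ ρ i → ∀ v ∈ B i r, ∀ l ∈ C.lits b,
          ¬ l.Reads (pos hpm (i, v))) := by
    intro j hj
    obtain ⟨π, hπ, hr⟩ := hB j hj
    obtain ⟨B, hB1, hB2⟩ := H946.exists_families hp (pos hpm) (pos_injective hpm) π hπ hs1 hsN'
      hg ha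
    refine ⟨B, hB1, fun b hb => ?_⟩
    obtain ⟨T, hT, hT2⟩ := hr b hb
    rcases hB2 T hT with ⟨i, hi⟩ | ⟨ρ, hρ⟩
    · exact Or.inl ⟨i, fun r v hv l hl hre => hi r v hv (hT2 l hl _ hre)⟩
    · exact Or.inr ⟨ρ, fun i r hne v hv l hl hre => hρ i r hne v hv (hT2 l hl _ hre)⟩
  have hmain : (1 : ℝ) ≤ (2 * C.middle + 1) * (2 * (1 / 2 : ℝ) ^ t) := by
    rcases hf with hf | hf
    · exact many_gates_blocks hp rfl hpm hpN hm1 ham hat htg C hC true hf
    · exact many_gates_blocks hp rfl hpm hpN hm1 ham hat htg C hC false hf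
  have h8 := size_of_corr ht3 hmain
  have h9 : (2 : ℝ) ^ (c * ((N : ℝ) / s) ^ p) ≤ (2 : ℝ) ^ ((t : ℝ) - 3) :=
    Real.rpow_le_rpow_of_exponent_le (by norm_num) hct
  refine h9.trans ?_
  rw [Real.rpow_sub (by norm_num), Real.rpow_natCast]
  have h10 : (2 : ℝ) ^ (3 : ℝ) = 8 := by
    rw [show (3 : ℝ) = ((3 : ℕ) : ℝ) by norm_num, Real.rpow_natCast]
    norm_num
  rw [h10, div_le_iff₀ (by norm_num)]
  linarith

end Vale.Agent.P336.R2.H444
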