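import Vale.Agent.P336.R2.H444.BlocksAssembly
import Vale.Agent.P336.R2.H842.NumUnif

/-!
# P336: circuits whose bottom gates read few blocks, uniformly in the number of blocks
-/

namespace Vale.Agent.P336.R2.H444

open Finset H836

/-- The number of middle gates, for given parameters. -/
theorem blocks_param {p N s g a t : ℕ} (hp : 1 ≤ p) (hpm : p * (N / 4 / p) ≤ N / 4)
    (hpN : p ≤ N / 4) (hm1 : 1 ≤ N / 4 / p) (ham : a ≤ N / 4 / p) (hs1 : 1 ≤ s) (hsN : s ≤ N)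
    (hg : 4 * s * p * g ≤ N / 4 / p) (ha : 4 * a * N ≤ (N / 4 / p) * s)
    (hat : 2 ^ p * t + p ≤ a) (htg : t ≤ g ^ p) (ht3 : 3 ≤ t) (C : Circuit N)
    (hB : ∀ j ∈ C.top, C.Blocked p s j)
    (hf : (∀ x, C.Accepts x ↔ slice lang N x = true) ∨
      (∀ x, C.Accepts x ↔ slice lang N x = false)) {r : ℝ} (hr : r ≤ t - 3) :
    (2 : ℝ) ^ r ≤ C.middle := by
  have hC : ∀ j ∈ C.top, ∃ B : Fin p → Fin g → Finset (Fin (N / 4 / p)),
      (∀ i r, a ≤ (B i r).card) ∧ ∀ b ∈ C.conj j,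
        (∃ i, ∀ r, ∀ v ∈ B i r, ∀ l ∈ C.lits b, ¬ l.Reads (pos hpm (i, v))) ∨
        (∃ ρ : Fin p → Fin g, ∀ i r, r ≠ ρ i → ∀ v ∈ B i r, ∀ l ∈ C.lits b,
          ¬ l.Reads (pos hpm (i, v))) := by
    intro j hj
    obtain ⟨π, hπ, hr⟩ := hB j hj
    obtain ⟨B, hB1, hB2⟩ := H946.exists_families hp (pos hpm) (pos_injective hpm) π hπ hs1 hsN
      hg ha
    refine ⟨B, hB1, fun b hb => ?_⟩
    obtain ⟨T, hT, hT2⟩ := hr b hb
    rcases hB2 T hT with ⟨i, hi⟩ | ⟨ρ, hρ⟩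
    · exact Or.inl ⟨i, fun r v hv l hl hre => hi r v hv (hT2 l hl _ hre)⟩
    · exact Or.inr ⟨ρ, fun i r hne v hv l hl hre => hρ i r hne v hv (hT2 l hl _ hre)⟩
  have hmain : (1 : ℝ) ≤ (2 * C.middle + 1) * (2 * (1 / 2 : ℝ) ^ t) := by
    rcases hf with hf | hf
    · exact many_gates_blocks hp rfl hpm hpN hm1 ham hat htg C hC true hf
    · exact many_gates_blocks hp rfl hpm hpN hm1 ham hat htg C hC false hf
  have h8 := size_of_corr ht3 hmain
  have h9 : (2 : ℝ) ^ r ≤ (2 : ℝ) ^ ((t : ℝ) - 3) :=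
    Real.rpow_le_rpow_of_exponent_le (by norm_num) hr
  refine h9.trans ?_
  rw [Real.rpow_sub (by norm_num), Real.rpow_natCast]
  have h10 : (2 : ℝ) ^ (3 : ℝ) = 8 := by
    rw [show (3 : ℝ) = ((3 : ℕ) : ℝ) by norm_num, Real.rpow_natCast]
    norm_num
  rw [h10, div_le_iff₀ (by norm_num)]
  linarith

/-- **Blocks, uniform in `p`.**  There is `K` such that every depth-three circuit for the slice of
length `N` of the language or for its complement, in which for each middle gate the variables are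
partitioned into blocks of size at most `s` such that every bottom gate of this middle gate reads
at most `p` blocks, has at least `2 ^ ((N / (K p² s)) ^ p)` middle gates, as long as
`N ^ p ≤ s ^ (p + 1)` and `K p² s ≤ N`. -/
theorem blocks_unif : ∃ K : ℕ, 1 ≤ K ∧ ∀ p N s : ℕ, 1 ≤ p → 1 ≤ N →
    N ^ p ≤ s ^ (p + 1) → K * p ^ 2 * s ≤ N → ∀ C : Circuit N,
    (∀ j ∈ C.top, C.Blocked p s j) →
    ((∀ x, C.Accepts x ↔ slice lang N x = true) ∨ (∀ x, C.Accepts x ↔ slice lang N x = false)) →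
    (2 : ℝ) ^ (((N : ℝ) / (K * p ^ 2 * s)) ^ p) ≤ C.middle := by
  obtain ⟨K, hK, h⟩ := H842.numerics_unif
  refine ⟨K, hK, fun p N s hp hN hNs hsN C hB hf => ?_⟩
  obtain ⟨g, a, t, hpm, hpN, hm1, ham, hs1, hsN', hg, ha, hat, htg, ht3, hct⟩ :=
    h p N s hp hN hNs hsN
  exact blocks_param hp hpm hpN hm1 ham hs1 hsN' hg ha hat htg ht3 C hB hf hct

end Vale.Agent.P336.R2.H444
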