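import Vale.Agent.P336.R2.H444.WideMain
import Vale.Agent.P336.R2.H444.Allowed
import Vale.Agent.P336.R2.H842.NumGen
import Vale.Agent.P336.R2.H81.OuterLocal

/-!
# P336: the lower bound for circuits whose wide bottom gates have local views
-/

namespace Vale.Agent.P336.R2.H444

open Finset H836 Expansion

/-- **Wide local views.**  Every depth-three circuit for the slice of length `N` of the language
or for its complement, in which every bottom gate reads at most `r` variables or only variables of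
the union of at most `p` views of the middle gate (views of size at most `k`, every variable in at
most `w` of them), has at least `2 ^ (N / (r Z))` middle gates, `Z = (2 ^ p (p + 1) ^ w) ^ K'`. -/
theorem wide_local_main : ∃ K' : ℕ, ∀ N w k p r : ℕ, 1 ≤ w → 1 ≤ k → 1 ≤ p → 1 ≤ r →
    k * (2 ^ p * (p + 1) ^ w) ^ K' ≤ N → r * (2 ^ p * (p + 1) ^ w) ^ K' ≤ N →
    ∀ C : Circuit N, (∀ j ∈ C.top, C.WideLocal r p k w j) →
    ((∀ x, C.Accepts x ↔ slice lang N x = true) ∨ (∀ x, C.Accepts x ↔ slice lang N x = false)) →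
    (2 : ℝ) ^ ((N : ℝ) / (r * ((2 : ℝ) ^ p * (p + 1) ^ w) ^ K')) ≤ C.middle := by
  classical
  obtain ⟨K, _, hK⟩ := H842.numerics_gen
  obtain ⟨K', _, hK'⟩ := H81.numerics_outer_local K
  refine ⟨K', fun N w k p r hw hk hp hr hkN hrN C hV hf => ?_⟩
  obtain ⟨hpm, hpN, hm1, hkm, hrm, hfin⟩ := hK' N w k p r hw hk hp hr hkN hrN
  obtain ⟨m, hm⟩ : ∃ m, m = N / 4 / (p + 1) := ⟨_, rfl⟩
  rw [← hm] at hpm hm1 hkm hrm hfin
  have h9 : 0 < 2 * (p + 1) ^ w := by positivity
  obtain ⟨a₀, ha2, ha3⟩ : ∃ a : ℕ, m ≤ 2 * (p + 1) ^ w * a ∧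
      ∀ b, m ≤ 2 * (p + 1) ^ w * b → a ≤ b := by
    have hex : ∃ b, m ≤ 2 * (p + 1) ^ w * b := ⟨m, Nat.le_mul_of_pos_left m h9⟩
    exact ⟨Nat.find hex, Nat.find_spec hex, fun b hb => Nat.find_min' hex hb⟩
  obtain ⟨a, f, q, y, β, ham, hq0, hq1, hrq, hy0, hy1, hβ0, hβ, hS⟩ :=
    hK (p + 1) m r a₀ (2 * (p + 1) ^ w) (by omega) hr h9 hrm ha2
  have hmain : ∀ j ∈ C.top, ∃ (c : Fin C.bottom → Fin (p + 1))
      (A : Fin (p + 1) → Finset (Fin m)), (∀ i, a₀ ≤ (A i).card) ∧
      ∀ b ∈ C.conj j, (C.vars b).encard ≤ r ∨ ∀ v ∈ A (c b), pos hpm (c b, v) ∉ C.vars b := by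
    intro j hj
    obtain ⟨J, V, hVk, hVw, hVr⟩ := hV j hj
    have hcard : ∀ t, (univ.filter fun v : Fin (p + 1) × Fin m => pos hpm v ∈ V t).card ≤ k := by
      intro t
      refine (Finset.card_le_card_of_injOn (pos hpm) (fun v hv => ?_)
        ((pos_injective hpm).injOn)).trans (hVk t)
      exact (Finset.mem_filter.1 hv).2
    obtain ⟨c, A, hA, hcA⟩ := exists_allowed (P := p + 1) (by omega) hk hw
      (fun t : Fin J => univ.filter fun v : Fin (p + 1) × Fin m => pos hpm v ∈ V t) hcard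
      (fun v => by
        refine le_trans (le_of_eq ?_) (hVw (pos hpm v))
        congr 1
        ext t
        simp) hkm
    have hex : ∀ b ∈ C.conj j, ¬ (C.vars b).encard ≤ r → ∃ i : Fin (p + 1),
        ∀ v ∈ A i, pos hpm (i, v) ∉ C.vars b := by
      intro b hb hn
      obtain ⟨T, hT, hr⟩ := (hVr b hb).resolve_left hn
      obtain ⟨i, hi⟩ : ∃ i, i ∉ T.image c := by
        by_contra hcon
        push Not at hcon
        have h1 : (univ : Finset (Fin (p + 1))).card ≤ (T.image c).card :=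
          Finset.card_le_card fun i _ => hcon i
        rw [Finset.card_univ, Fintype.card_fin] at h1
        have h2 : (T.image c).card ≤ T.card := Finset.card_image_le
        omega
      refine ⟨i, fun v hv hre => ?_⟩
      obtain ⟨t, ht, htv⟩ := hr _ hre
      refine hcA t i (fun hit => hi ?_) v hv (Finset.mem_filter.2 ⟨Finset.mem_univ _, htv⟩)
      rw [hit]
      exact Finset.mem_image_of_mem c ht
    refine ⟨fun b => if hb : ∃ i : Fin (p + 1), ∀ v ∈ A i, pos hpm (i, v) ∉ C.vars b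
      then hb.choose else 0, A, fun i => ha3 _ (hA i), ?_⟩
    intro b hb
    by_cases hn : (C.vars b).encard ≤ r
    · exact Or.inl hn
    · have hb' := hex b hb hn
      refine Or.inr ?_
      simp only [dif_pos hb']
      exact hb'.choose_spec
  refine (Real.rpow_le_rpow_of_exponent_le (by norm_num) hfin).trans (hS C.middle ?_)
  rcases hf with hf | hf
  · exact many_gates_narrow (by omega) hm hpm hpN hm1 ham hq0 hq1 hrq hy0 hy1 hβ0 hβ C hmain
      true hf
  · exact many_gates_narrow (by omega) hm hpm hpN hm1 ham hq0 hq1 hrq hy0 hy1 hβ0 hβ C hmain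
      false hf

end Vale.Agent.P336.R2.H444
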