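import Vale.Agent.P336.R2.H836.WideMain2
import Vale.Agent.P336.R2.H444.WideLocalMain

/-!
# P336: the lower bound for circuits whose middle sized bottom gates have local views
-/

namespace Vale.Agent.P336.R2.H444

open Finset H836 Expansion

/-- **Wide local views, second version.**  The circuit `C` computes the slice or its complement;
the circuit `C₁` agrees with `C` unless a wide bottom gate of the set `B` is not satisfied. -/
theorem wide_local_main2 : ∃ K' : ℕ, ∀ N w k p r : ℕ, 1 ≤ w → 1 ≤ k → 1 ≤ p → 1 ≤ r →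
    k * (2 ^ p * (p + 1) ^ w) ^ K' ≤ N → r * (2 ^ p * (p + 1) ^ w) ^ K' ≤ N →
    ∀ (C C₁ : Circuit N) (R : ℕ) (B : Finset (Fin C.bottom)),
    (∀ b ∈ B, (R : ℕ∞) ≤ (C.vars b).encard) → (∀ y, C.Accepts y → C₁.Accepts y) →
    (∀ y, C₁.Accepts y → C.Accepts y ∨ ∃ b ∈ B, ¬ ∃ l ∈ C.lits b, l.eval y = true) →
    (∀ j ∈ C₁.top, C₁.WideLocal r p k w j) →
    ((∀ x, C.Accepts x ↔ slice lang2 N x = true) ∨
      (∀ x, C.Accepts x ↔ slice lang2 N x = false)) →
    4 * (C₁.middle : ℝ) * (B.card * (1 / 2) ^ (R - Nat.size N)) ≤ 1 →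
    (2 : ℝ) ^ ((N : ℝ) / (r * ((2 : ℝ) ^ p * (p + 1) ^ w) ^ K')) ≤ 2 * C₁.middle + 1 := by
  classical
  obtain ⟨K, hK1, hK⟩ := H842.numerics_gen
  obtain ⟨K', _, hK'⟩ := H81.numerics_outer_local K
  refine ⟨K', fun N w k p r hw hk hp hr hkN hrN C C₁ R B hB hCC hCC' hV hf hδ => ?_⟩
  obtain ⟨hpm, hpN, hm1, hkm, hrm, hfin⟩ := hK' N w k p r hw hk hp hr hkN hrN
  obtain ⟨m, hm⟩ : ∃ m, m = N / 4 / (p + 1) := ⟨_, rfl⟩
  rw [← hm] at hpm hm1 hkm hrm hfin
  have hmN : m ≤ N := by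
    rw [hm]
    exact (Nat.div_le_self _ _).trans (Nat.div_le_self _ _)
  have hpsz : p + 1 ≤ Nat.size N := by
    have h1 : 2 ^ (p + 1) ≤ N := by
      refine le_trans ?_ (hrm.trans hmN)
      calc 2 ^ (p + 1) ≤ (2 * (p + 1) ^ w) * 2 ^ (p + 1) :=
            Nat.le_mul_of_pos_left _ (by positivity)
        _ ≤ ((2 * (p + 1) ^ w) * 2 ^ (p + 1)) ^ K := Nat.le_self_pow (by omega) _
        _ ≤ r * ((2 * (p + 1) ^ w) * 2 ^ (p + 1)) ^ K := Nat.le_mul_of_pos_left _ hr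
    have h2 : p + 1 < Nat.size N := Nat.lt_size.2 h1
    omega
  have hsz : Nat.size N ≤ N / 4 := by
    refine size_le_quarter ?_
    have h3 : 2 ^ 3 ≤ (p + 1) ^ (2 * w + 1) :=
      calc 2 ^ 3 ≤ 2 ^ (2 * w + 1) := Nat.pow_le_pow_right (by norm_num) (by omega)
        _ ≤ (p + 1) ^ (2 * w + 1) := Nat.pow_le_pow_left (by omega) _
    have h4 : 4 * 2 ^ 3 ≤ 4 * w * k * (p + 1) ^ (2 * w + 1) := by
      refine Nat.mul_le_mul ?_ h3
      have : 1 ≤ w * k := Nat.mul_pos hw hk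
      nlinarith
    omega
  have h9 : 0 < 2 * (p + 1) ^ w := by positivity
  obtain ⟨a₀, ha2, ha3⟩ : ∃ a : ℕ, m ≤ 2 * (p + 1) ^ w * a ∧
      ∀ b, m ≤ 2 * (p + 1) ^ w * b → a ≤ b := by
    have hex : ∃ b, m ≤ 2 * (p + 1) ^ w * b := ⟨m, Nat.le_mul_of_pos_left m h9⟩
    exact ⟨Nat.find hex, Nat.find_spec hex, fun b hb => Nat.find_min' hex hb⟩
  obtain ⟨a, f, q, y, β, ham, hq0, hq1, hrq, hy0, hy1, hβ0, hβ, hS⟩ :=
    hK (p + 1) m r a₀ (2 * (p + 1) ^ w) (by omega) hr h9 hrm ha2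
  have hmain : ∀ j ∈ C₁.top, ∃ (c : Fin C₁.bottom → Fin (p + 1))
      (A : Fin (p + 1) → Finset (Fin m)), (∀ i, a₀ ≤ (A i).card) ∧
      ∀ b ∈ C₁.conj j, (C₁.vars b).encard ≤ r ∨
        ∀ v ∈ A (c b), pos hpm (c b, v) ∉ C₁.vars b := by
    intro j hj
    obtain ⟨J, V, hVk, hVw, hVr⟩ := hV j hj
    have hcard : ∀ t, (univ.filter fun v : Fin (p + 1) × Fin m => pos hpm v ∈ V t).card ≤ k := by
      intro t
      refine (Finset.card_le_card_of_injOn (pos hpm) (fun v hv => ?_)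
        ((pos_injective hpm).injOn)).trans (hVk t)
      exact (Finset.mem_filter.1 hv).2
    obtain ⟨c, A, hA, hcA⟩ := exists_allowed (P := p + 1) (by omega) hk hw
      (fun t : Fin J => univ.filter fun v : Fin (p + 1) × Fin m => pos hpm v ∈ V t) hcard
      (fun v => by
        refine le_trans (le_of_eq ?_) (hVw (pos hpm v))
        congr 1
        ext t
        simp) hkm
    have hex : ∀ b ∈ C₁.conj j, ¬ (C₁.vars b).encard ≤ r → ∃ i : Fin (p + 1),
        ∀ v ∈ A i, pos hpm (i, v) ∉ C₁.vars b := by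
      intro b hb hn
      obtain ⟨T, hT, hr⟩ := (hVr b hb).resolve_left hn
      obtain ⟨i, hi⟩ : ∃ i, i ∉ T.image c := by
        by_contra hcon
        push Not at hcon
        have h1 : (univ : Finset (Fin (p + 1))).card ≤ (T.image c).card :=
          Finset.card_le_card fun i _ => hcon i
        rw [Finset.card_univ, Fintype.card_fin] at h1
        have h2 : (T.image c).card ≤ T.card := Finset.card_image_le
        omega
      refine ⟨i, fun v hv hre => ?_⟩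
      obtain ⟨t, ht, htv⟩ := hr _ hre
      refine hcA t i (fun hit => hi ?_) v hv (Finset.mem_filter.2 ⟨Finset.mem_univ _, htv⟩)
      rw [hit]
      exact Finset.mem_image_of_mem c ht
    refine ⟨fun b => if hb : ∃ i : Fin (p + 1), ∀ v ∈ A i, pos hpm (i, v) ∉ C₁.vars b
      then hb.choose else 0, A, fun i => ha3 _ (hA i), ?_⟩
    intro b hb
    by_cases hn : (C₁.vars b).encard ≤ r
    · exact Or.inl hn
    · have hb' := hex b hb hn
      refine Or.inr ?_
      simp only [dif_pos hb']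
      exact hb'.choose_spec
  have hfin2 : (2 : ℝ) ^ ((N : ℝ) / (r * ((2 : ℝ) ^ p * (p + 1) ^ w) ^ K')) ≤
      ((2 * C₁.middle + 1 : ℕ) : ℝ) := by
    refine (Real.rpow_le_rpow_of_exponent_le (by norm_num) hfin).trans
      (hS (2 * C₁.middle + 1) ?_)
    rcases hf with hf | hf
    · exact half_bound (many_gates2 (by omega) hm hpm hpsz hsz hm1 ham hq0 hq1 hrq hy0 hy1 hβ0 hβ
        C C₁ B hB hCC hCC' hmain true hf) hδ
    · exact half_bound (many_gates2 (by omega) hm hpm hpsz hsz hm1 ham hq0 hq1 hrq hy0 hy1 hβ0 hβ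
        C C₁ B hB hCC hCC' hmain false hf) hδ
  push_cast at hfin2
  exact hfin2

end Vale.Agent.P336.R2.H444
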