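import Vale.Agent.P336.R2.H836.CriticalMain
import Vale.Agent.P336.R2.H444.WideLocalMain2

/-!
# P336: the lower bound for circuits whose bottom gates of critical width have local views
-/

namespace Vale.Agent.P336.R2.H444

open Vale.Agent.P336 H836

/-- **Local views at critical widths.** -/
theorem critical_local_main : ∃ K : ℕ, ∀ N w k p r e : ℕ, 1 ≤ w → 1 ≤ k → 1 ≤ p → 1 ≤ r →
    1 ≤ e → (k : ℝ) * ((2 : ℝ) ^ p * (p + 1) ^ w) ^ K ≤ N →
    (e : ℝ) * Real.log N * (r * ((2 : ℝ) ^ p * (p + 1) ^ w) ^ K) ≤ N →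
    ∀ C : Circuit N, (∀ j ∈ C.top, C.CriticalLocal e r p k w j) →
    ((∀ x, C.Accepts x ↔ slice lang2 N x = true) ∨
      (∀ x, C.Accepts x ↔ slice lang2 N x = false)) →
    (2 : ℝ) ^ ((N : ℝ) / (r * ((2 : ℝ) ^ p * (p + 1) ^ w) ^ K)) ≤
      (max C.middle (C.wideCount r) : ℕ) := by
  obtain ⟨K, hK⟩ := wide_local_main2
  refine ⟨K + 6, fun N w k p r e hw hk hp hr he hkN heN C hV hC => ?_⟩
  have hr1 : (1 : ℝ) ≤ r := by exact_mod_cast hr
  have he1 : (1 : ℝ) ≤ e := by exact_mod_cast he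
  have hk1 : (1 : ℝ) ≤ k := by exact_mod_cast hk
  obtain ⟨z, hz⟩ : ∃ z : ℝ, z = (2 : ℝ) ^ p * (p + 1) ^ w := ⟨_, rfl⟩
  rw [← hz] at hkN heN ⊢
  have hz2 : 2 ≤ z := by
    rw [hz]
    have h1 : (2 : ℝ) ^ 1 ≤ 2 ^ p := pow_le_pow_right₀ (by norm_num) hp
    have h2 : (1 : ℝ) ≤ ((p : ℝ) + 1) ^ w := one_le_pow₀ (by linarith [(Nat.cast_nonneg p : (0 : ℝ) ≤ p)])
    nlinarith
  have hz1 : 1 ≤ z := by linarith
  have hz0 : 0 ≤ z := by linarith
  have hZ₀1 : 1 ≤ z ^ K := one_le_pow₀ hz1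
  have h64 : 64 * z ^ K ≤ z ^ (K + 6) := by
    have h1 : (2 : ℝ) ^ 6 ≤ z ^ 6 := pow_le_pow_left₀ (by norm_num) hz2 6
    rw [pow_add, mul_comm (z ^ K)]
    exact mul_le_mul_of_nonneg_right (le_trans (by norm_num) h1) (by positivity)
  have hleZ : z ^ K ≤ z ^ (K + 6) := by linarith
  have hZpos : 0 < z ^ (K + 6) := by linarith
  have hZN : z ^ (K + 6) ≤ N := by nlinarith
  have hN : 16 ≤ N := by
    have h1 : (16 : ℝ) ≤ N := by linarith
    exact_mod_cast h1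
  have hlog := one_le_log hN
  have hrN : (r : ℝ) * z ^ (K + 6) ≤ N := by
    have h1 : 1 * ((r : ℝ) * z ^ (K + 6)) ≤ (e : ℝ) * Real.log N * (r * z ^ (K + 6)) := by
      refine mul_le_mul_of_nonneg_right ?_ (by positivity)
      nlinarith
    linarith
  have hcast : ∀ t : ℕ, (t : ℝ) * z ^ (K + 6) ≤ N → t * (2 ^ p * (p + 1) ^ w) ^ K ≤ N := by
    intro t ht
    have h1 : (t : ℝ) * z ^ K ≤ N :=
      (mul_le_mul_of_nonneg_left hleZ (Nat.cast_nonneg t)).trans ht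
    rw [hz] at h1
    exact_mod_cast h1
  -- drop the wide gates, replace the exceptional gates
  have hV1 : ∀ j ∈ (dropWide C r).top, (dropWide C r).AlmostLocal e r p k w j := by
    intro j hj
    obtain ⟨X, J, V, hX, hVk, hVw, hVb⟩ := hV j hj
    refine ⟨X, J, V, hX, hVk, hVw, fun b hb => ?_⟩
    rcases hVb b hb.1 with h | h | h | h
    · exact Or.inl h
    · exact Or.inr (Or.inl h)
    · exact absurd h hb.2
    · exact Or.inr (Or.inr h)
  obtain ⟨C₁, hacc, hmid, hV2⟩ := reduce_local hr (dropWide C r) hV1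
  have hmid' : C₁.middle ≤ C.middle * (2 * N + 2) ^ e := hmid
  refine H946.finish hZ₀1 h64 hN hr he heN (R := ⌈(N : ℝ) / r⌉₊) (Nat.le_ceil _) hmid'
    fun hδ => ?_
  rw [← card_wideSet] at hδ
  have h1 := hK N w k p r hw hk hp hr (hcast k hkN) (hcast r hrN)
    C C₁ ⌈(N : ℝ) / r⌉₊ (wideSet C r) (fun b hb => ?_)
    (fun y hy => (hacc y).2 (dropWide_accepts C r hy))
    (fun y hy => accepts_of_dropWide C r ((hacc y).1 hy)) hV2 hC hδ
  · rw [← hz] at h1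
    exact h1
  · unfold wideSet at hb
    exact ceil_le_encard hr (Finset.mem_filter.1 hb).2

end Vale.Agent.P336.R2.H444
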