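import Vale.Agent.P336.R2.H746.CylSpec

/-!
# P336: the value of a word of the language of the cylinder gates is the form
-/

namespace Vale.Agent.P336.Cyl

open Finset

/-- A bit as an element of the field with two elements. -/
def b2 (b : Bool) : ZMod 2 := if b = true then 1 else 0

theorem b2_xor (a b : Bool) : b2 (xor a b) = b2 a + b2 b := by
  cases a <;> cases b <;> decide

theorem b2_and (a b : Bool) : b2 (a && b) = b2 a * b2 b := by
  cases a <;> cases b <;> decide

theorem cast_toNat (b : Bool) : ((b.toNat : ℕ) : ZMod 2) = b2 b := by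
  cases b <;> rfl

theorem b2_decide (a : ZMod 2) : b2 (decide (a = 1)) = a := by
  revert a
  decide

/-- The sums of the dynamic programming. -/
def dp (y : ℕ → ZMod 2) (r m k d : ℕ) : ZMod 2 :=
  ∑ T ∈ (range m).powersetCard k, if (∑ v ∈ T, v) % r = d then ∏ v ∈ T, y v else 0

theorem dp_zero (y : ℕ → ZMod 2) (r m d : ℕ) : dp y r m 0 d = if 0 % r = d then 1 else 0 := by
  unfold dp
  rw [powersetCard_zero, sum_singleton, sum_empty, prod_empty]

theorem dp_start (y : ℕ → ZMod 2) (r k d : ℕ) : dp y r 0 (k + 1) d = 0 := by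
  unfold dp
  rw [range_zero, powersetCard_eq_empty.2 (by simp), sum_empty]

theorem mod_shift {r m S d : ℕ} (hr : 0 < r) (hd : d < r) :
    (m + S) % r = d ↔ S % r = (d + (r - m % r)) % r := by
  have hm : m % r < r := Nat.mod_lt m hr
  have h1 : (m + S) % r = d ↔ (m + S) ≡ d [MOD r] := by
    unfold Nat.ModEq
    rw [Nat.mod_eq_of_lt hd]
  have h2 : S % r = (d + (r - m % r)) % r ↔ S ≡ d + (r - m % r) [MOD r] := Iff.rfl
  rw [h1, h2]
  have h3 : m + (d + (r - m % r)) ≡ d [MOD r] := by
    have h4 : m + (d + (r - m % r)) = d + r * (m / r + 1) := by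
      have h5 := Nat.div_add_mod m r
      rw [mul_add, mul_one]
      omega
    rw [h4]
    unfold Nat.ModEq
    rw [Nat.add_mul_mod_self_left]
  constructor
  · intro h
    exact Nat.ModEq.add_left_cancel' m (h.trans h3.symm)
  · intro h
    exact (Nat.ModEq.add_left m h).trans h3

theorem dp_succ (y : ℕ → ZMod 2) {r : ℕ} (hr : 0 < r) (m k : ℕ) {d : ℕ} (hd : d < r) :
    dp y r (m + 1) (k + 1) d =
      dp y r m (k + 1) d + y m * dp y r m k ((d + (r - m % r)) % r) := by
  unfold dp
  have hm : m ∉ range m := by simp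
  rw [range_add_one, powersetCard_succ_insert hm, sum_union, sum_image]
  · congr 1
    rw [mul_sum]
    refine sum_congr rfl fun T hT => ?_
    have hmT : m ∉ T := fun h => hm ((mem_powersetCard.1 hT).1 h)
    rw [sum_insert hmT, prod_insert hmT, mul_ite, mul_zero]
    exact if_congr (mod_shift hr hd) rfl rfl
  · intro T hT T' hT' h
    have h1 : m ∉ T := fun h => hm ((mem_powersetCard.1 hT).1 h)
    have h2 : m ∉ T' := fun h => hm ((mem_powersetCard.1 hT').1 h)
    rw [← erase_insert h1, ← erase_insert h2, h]
  · rw [disjoint_left]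
    intro T hT hT'
    obtain ⟨T', _, rfl⟩ := mem_image.1 hT'
    exact hm ((mem_powersetCard.1 hT).1 (mem_insert_self _ _))

theorem bit_step {w : List Bool} {o r p : ℕ} {c : List Bool} {v i : ℕ} (hi : i < (p + 1) * r) :
    bit (step w o r p c v) i = xor (bit c i) (decide (r ≤ i) &&
      (bit w (o + v) && bit c ((i / r - 1) * r + (i % r + (r - v % r)) % r))) := by
  unfold bit step
  rw [List.getD_eq_getElem _ _ (by simpa using hi), List.getElem_map, List.getElem_range]
  rfl

theorem bit_table (w : List Bool) (o : ℕ) {r p : ℕ} (hr : 0 < r) (m : ℕ) :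
    ∀ k, k ≤ p → ∀ d, d < r → b2 (bit (table w o r p m) (k * r + d)) =
      dp (fun v => b2 (bit w (o + v))) r m k d := by
  induction m with
  | zero =>
    intro k _ d hd
    unfold table
    rw [List.range_zero, List.foldl_nil]
    rcases Nat.eq_zero_or_pos k with rfl | hk
    · rw [dp_zero, Nat.zero_mod, zero_mul, zero_add]
      rcases Nat.eq_zero_or_pos d with rfl | hd0
      · rfl
      · obtain ⟨e, rfl⟩ : ∃ e, d = e + 1 := ⟨d - 1, by omega⟩
        rw [if_neg (by omega)]
        rfl
    · obtain ⟨k', rfl⟩ : ∃ k', k = k' + 1 := ⟨k - 1, by omega⟩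
      rw [dp_start]
      have h1 : 1 ≤ (k' + 1) * r + d := le_trans (Nat.mul_pos (by omega) hr) (Nat.le_add_right _ _)
      obtain ⟨e, he⟩ : ∃ e, (k' + 1) * r + d = e + 1 := ⟨(k' + 1) * r + d - 1, by omega⟩
      rw [he]
      rfl
  | succ m ih =>
    intro k hk d hd
    have hi : k * r + d < (p + 1) * r := by
      have h1 : (k + 1) * r ≤ (p + 1) * r := Nat.mul_le_mul_right r (by omega)
      rw [add_mul, one_mul] at h1
      omega
    have h0 : table w o r p (m + 1) = step w o r p (table w o r p m) m := by
      unfold table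
      rw [List.range_succ, List.foldl_append, List.foldl_cons, List.foldl_nil]
    rw [h0, bit_step hi, b2_xor, ih k hk d hd]
    rcases Nat.eq_zero_or_pos k with rfl | hk0
    · have h1 : decide (r ≤ 0 * r + d) = false := by
        rw [decide_eq_false_iff_not]
        omega
      rw [h1, Bool.false_and, dp_zero, dp_zero]
      exact add_zero _
    · obtain ⟨k', rfl⟩ : ∃ k', k = k' + 1 := ⟨k - 1, by omega⟩
      have h1 : decide (r ≤ (k' + 1) * r + d) = true := by
        rw [decide_eq_true_iff, add_mul, one_mul]
        omega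
      have h2 : ((k' + 1) * r + d) / r = k' + 1 := by
        rw [mul_comm, Nat.mul_add_div hr, Nat.div_eq_of_lt hd, add_zero]
      have h3 : ((k' + 1) * r + d) % r = d := by
        rw [mul_comm, Nat.mul_add_mod, Nat.mod_eq_of_lt hd]
      rw [h1, Bool.true_and, b2_and, h2, h3, Nat.add_sub_cancel,
        ih k' (by omega) _ (Nat.mod_lt _ hr), dp_succ _ hr m k' hd]

theorem dp_fin (y : ℕ → ZMod 2) (r m k d : ℕ) (x : Fin m → ZMod 2)
    (hx : ∀ v : Fin m, y v = x v) :
    dp y r m k d = ∑ T ∈ (univ : Finset (Fin m)).powersetCard k,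
      if (∑ v ∈ T, (v : ℕ)) % r = d then ∏ v ∈ T, x v else 0 := by
  unfold dp
  have h1 : range m = (univ : Finset (Fin m)).map Fin.valEmbedding := by
    ext i
    rw [mem_range, mem_map]
    constructor
    · intro h
      exact ⟨⟨i, h⟩, mem_univ _, rfl⟩
    · rintro ⟨j, _, rfl⟩
      exact j.2
  rw [h1, powersetCard_map, sum_map]
  refine sum_congr rfl fun T _ => ?_
  rw [RelEmbedding.coe_toEmbedding, mapEmbedding_apply, sum_map, prod_map]
  refine if_congr Iff.rfl (prod_congr rfl fun v _ => ?_) rfl
  exact hx v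

/-- The value is the form. -/
theorem cast_valueAt (w : List Bool) (q p : ℕ) {r : ℕ} (hr : 0 < r) (s : Fin r → ZMod 2)
    (hs : ∀ d : Fin r, b2 (bit w (2 * q + d)) = s d) (x : Fin (w.length - (2 * q + r)) → ZMod 2)
    (hx : ∀ v : Fin (w.length - (2 * q + r)), b2 (bit w (2 * q + r + v)) = x v) :
    ((valueAt w q p r : ℕ) : ZMod 2) = form p s x := by
  unfold valueAt form
  rw [Nat.cast_sum]
  have h1 : ∀ d ∈ range r, (((bit w (2 * q + d) &&
      bit (table w (2 * q + r) r p (w.length - (2 * q + r))) (p * r + d)).toNat : ℕ) : ZMod 2) =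
      b2 (bit w (2 * q + d)) * ∑ T ∈ (univ : Finset (Fin (w.length - (2 * q + r)))).powersetCard p,
        if (∑ v ∈ T, (v : ℕ)) % r = d then ∏ v ∈ T, x v else 0 := by
    intro d hd
    rw [cast_toNat, b2_and, bit_table w (2 * q + r) hr _ p le_rfl d (mem_range.1 hd),
      dp_fin _ _ _ _ _ x hx]
  rw [sum_congr rfl h1, Finset.sum_range]
  have h2 : ∀ d : Fin r, b2 (bit w (2 * q + d)) *
      (∑ T ∈ (univ : Finset (Fin (w.length - (2 * q + r)))).powersetCard p,
        if (∑ v ∈ T, (v : ℕ)) % r = (d : ℕ) then ∏ v ∈ T, x v else 0) =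
      ∑ T ∈ (univ : Finset (Fin (w.length - (2 * q + r)))).powersetCard p,
        (if (d : ℕ) = (∑ v ∈ T, (v : ℕ)) % r then s d else 0) * ∏ v ∈ T, x v := by
    intro d
    rw [hs, mul_sum]
    refine sum_congr rfl fun T _ => ?_
    by_cases h : (∑ v ∈ T, (v : ℕ)) % r = (d : ℕ)
    · rw [if_pos h, if_pos h.symm]
    · rw [if_neg h, if_neg fun h' => h h'.symm, mul_zero, zero_mul]
  rw [sum_congr rfl fun d _ => h2 d, sum_comm]
  refine sum_congr rfl fun T _ => ?_
  rw [sum_mul]

theorem bit_ofFn {N : ℕ} (u : Fin N → Bool) {i : ℕ} (hi : i < N) :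
    bit (List.ofFn u) i = u ⟨i, hi⟩ := by
  unfold bit
  rw [List.getD_eq_getElem _ _ (by simpa using hi), List.getElem_ofFn]

section

variable {N q p ρ r : ℕ} (s : Fin r → ZMod 2) (x : Fin (N - (2 * q + r)) → ZMod 2)

theorem count_first (hp : p ≤ q) (hN : 2 * q + r ≤ N) :
    ((List.ofFn (word N q p ρ r s x)).take q).count true = p := by
  have h1 : (List.ofFn (word N q p ρ r s x)).take q =
      List.replicate p true ++ List.replicate (q - p) false := by
    refine List.ext_getElem ?_ fun n h1 h2 => ?_
    · simp only [List.length_take, List.length_ofFn, List.length_append, List.length_replicate]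
      omega
    · rw [List.length_take, List.length_ofFn] at h1
      rw [List.getElem_take, List.getElem_ofFn, List.getElem_append]
      unfold word
      simp only [List.length_replicate, List.getElem_replicate]
      rw [if_pos (by omega)]
      split_ifs with h3
      · exact decide_eq_true h3
      · exact decide_eq_false h3
  rw [h1, List.count_append, List.count_replicate, List.count_replicate]
  simp

theorem count_second (hρ : ρ ≤ q) (hN : 2 * q + r ≤ N) :
    (((List.ofFn (word N q p ρ r s x)).drop q).take q).count true = ρ := by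
  have h1 : ((List.ofFn (word N q p ρ r s x)).drop q).take q =
      List.replicate ρ true ++ List.replicate (q - ρ) false := by
    refine List.ext_getElem ?_ fun n h1 h2 => ?_
    · simp only [List.length_take, List.length_drop, List.length_ofFn, List.length_append,
        List.length_replicate]
      omega
    · rw [List.length_take, List.length_drop, List.length_ofFn] at h1
      rw [List.getElem_take, List.getElem_drop, List.getElem_ofFn, List.getElem_append]
      unfold word
      simp only [List.length_replicate, List.getElem_replicate]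
      rw [if_neg (by omega), if_pos (by omega)]
      have h4 : q + n - q = n := by omega
      rw [h4]
      split_ifs with h3
      · exact decide_eq_true h3
      · exact decide_eq_false h3
  rw [h1, List.count_append, List.count_replicate, List.count_replicate]
  simp

end

theorem mem_lang_word {N q p ρ r : ℕ} (hq : q = root N) (hr : r = p * (ρ * q)) (hp : p ≤ q)
    (hρ : ρ ≤ q) (hr0 : 0 < r) (hN : 2 * q + r ≤ N) (s : Fin r → ZMod 2)
    (x : Fin (N - (2 * q + r)) → ZMod 2) :
    List.ofFn (word N q p ρ r s x) ∈ lang ↔ form p s x = 1 := by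
  have hv : value (List.ofFn (word N q p ρ r s x)) =
      valueAt (List.ofFn (word N q p ρ r s x)) q p r := by
    unfold value
    rw [List.length_ofFn, ← hq, count_first s x hp hN, count_second s x hρ hN, ← hr]
  obtain ⟨w, hw⟩ : ∃ w, w = List.ofFn (word N q p ρ r s x) := ⟨_, rfl⟩
  have hlen : w.length = N := by rw [hw, List.length_ofFn]
  have hs : ∀ d : Fin r, b2 (bit w (2 * q + d)) = s d := by
    intro d
    have hd := d.isLt
    rw [hw, bit_ofFn _ (show 2 * q + (d : ℕ) < N by omega)]
    unfold word
    simp only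
    rw [if_neg (by omega), if_neg (by omega), dif_pos (by omega), b2_decide]
    congr 1
    exact Fin.ext (by simp)
  have hx : ∀ v : Fin (N - (2 * q + r)), b2 (bit w (2 * q + r + v)) = x v := by
    intro v
    have hv := v.isLt
    rw [hw, bit_ofFn _ (show 2 * q + r + (v : ℕ) < N by omega)]
    unfold word
    simp only
    rw [if_neg (by omega), if_neg (by omega), dif_neg (by omega), dif_pos (by omega), b2_decide]
    congr 1
    exact Fin.ext (by simp)
  have hmain : ((valueAt w q p r : ℕ) : ZMod 2) = form p s x := by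
    subst hlen
    exact cast_valueAt w q p hr0 s hs x hx
  rw [← hmain, ← hw]
  rw [← hw] at hv
  show value w % 2 = 1 ↔ _
  rw [hv]
  constructor
  · intro h
    rw [← Nat.mod_add_div (valueAt w q p r) 2, h]
    push_cast
    rw [show (2 : ZMod 2) = 0 from rfl, zero_mul, add_zero]
  · intro h
    have h5 : ((valueAt w q p r : ℕ) : ZMod 2) = ((1 : ℕ) : ZMod 2) := by
      rw [h, Nat.cast_one]
    exact (ZMod.natCast_eq_natCast_iff' _ _ 2).1 h5

end Vale.Agent.P336.Cyl
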