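import Vale.Agent.P336.R2.H746.CylSpec
import Vale.Agent.P336.H932.LangP

/-!
# P336: the language of the cylinder gates is decided in polynomial time
-/

namespace Vale.Agent.P336.Cyl

open Finset Vale.Agent.Lib.PolyTime

/-! ### The root -/

theorem root_eq_sqrt (n : ℕ) : root n = Nat.sqrt n := by
  unfold root
  obtain ⟨k, hk⟩ : ∃ k, n = Nat.sqrt n + k := ⟨n - Nat.sqrt n, by
    have := Nat.sqrt_le_self n
    omega⟩
  have h1 : List.range n = List.range (Nat.sqrt n) ++ (List.range k).map (Nat.sqrt n + ·) := by
    rw [← List.range_add, ← hk]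
  rw [h1, List.filter_append, List.length_append]
  have h2 : (List.range (Nat.sqrt n)).filter (fun i => decide ((i + 1) * (i + 1) ≤ n)) =
      List.range (Nat.sqrt n) := by
    rw [List.filter_eq_self]
    intro i hi
    rw [List.mem_range] at hi
    rw [decide_eq_true_iff]
    exact Nat.le_sqrt.1 hi
  have h3 : ((List.range k).map (Nat.sqrt n + ·)).filter
      (fun i => decide ((i + 1) * (i + 1) ≤ n)) = [] := by
    rw [List.filter_eq_nil_iff]
    intro i hi
    rw [List.mem_map] at hi
    obtain ⟨j, _, rfl⟩ := hi
    rw [decide_eq_true_iff, ← Nat.le_sqrt]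
    omega
  rw [h2, h3, List.length_range, List.length_nil, add_zero]

theorem root_mul_le (n : ℕ) : root n * root n ≤ n := by
  rw [root_eq_sqrt]
  exact Nat.sqrt_le n

theorem lt_root_succ (n : ℕ) : n < (root n + 1) * (root n + 1) := by
  rw [root_eq_sqrt]
  exact Nat.lt_succ_sqrt n

theorem root_le (n : ℕ) : root n ≤ n := by
  rw [root_eq_sqrt]
  exact Nat.sqrt_le_self n

/-! ### Polynomial time -/

variable {A : Set Word} {α : Type*} [Enc α]

theorem PT_root {k : α → ℕ} (hk : PT A k) (hkb : PBd k) : PT A (fun a => root (k a)) := by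
  unfold root
  refine PT.length (PT.filter (PT.range hk hkb) ?_)
  have h1 : PT A (fun p : α × ℕ => p.2 + 1) := PT.add PT.snd' (PT.const 1)
  exact PT.le (PT.mul h1 h1) (hk.comp PT.fst')

theorem PT_bit {l : α → List Bool} {i : α → ℕ} (hl : PT A l) (hi : PT A i) :
    PT A (fun a => bit (l a) (i a)) := PT.getD hl hi (PT.const false)

theorem PT_toNat {b : α → Bool} (hb : PT A b) : PT A (fun a => (b a).toNat) := by
  refine (hb.cond (PT.const 1) (PT.const 0)).congr fun a => ?_
  cases b a <;> rfl

theorem PT_countTrue {l : α → List Bool} (hl : PT A l) : PT A (fun a => (l a).count true) := by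
  refine (PT.length (PT.filter (f := fun _ b => b) hl PT.snd')).congr fun a => ?_
  rw [List.count_eq_length_filter]
  congr 1
  exact List.filter_congr fun b _ => by cases b <;> rfl

theorem PT_step {w c : α → List Bool} {o r p v : α → ℕ} (hw : PT A w) (ho : PT A o)
    (hr : PT A r) (hrb : PBd r) (hp : PT A p) (hpb : PBd p) (hc : PT A c) (hv : PT A v) :
    PT A (fun a => step (w a) (o a) (r a) (p a) (c a) (v a)) := by
  unfold step
  refine PT.map (PT.range (PT.mul (PT.add hp (PT.const 1)) hr)
    ((hpb.add (PBd.const 1)).mul hrb)) ?_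
  have ha : PT A (fun q : α × ℕ => q.1) := PT.fst'
  have hi : PT A (fun q : α × ℕ => q.2) := PT.snd'
  refine PT.xor (PT_bit (hc.comp ha) hi) (PT.and (PT.le (hr.comp ha) hi)
    (PT.and (PT_bit (hw.comp ha) (PT.add (ho.comp ha) (hv.comp ha))) (PT_bit (hc.comp ha) ?_)))
  refine PT.add (PT.mul (PT.sub (PT.div hi (hr.comp ha)) (PT.const 1)) (hr.comp ha)) ?_
  exact PT.mod (PT.add (PT.mod hi (hr.comp ha))
    (PT.sub (hr.comp ha) (PT.mod (hv.comp ha) (hr.comp ha)))) (hr.comp ha)

theorem esize_step_le (w : List Bool) (o r p : ℕ) (c : List Bool) (v : ℕ) :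
    esize (step w o r p c v) ≤ 3 * ((p + 1) * r) := by
  have h1 : esize (step w o r p c v) ≤ (step w o r p c v).length * (2 * 1 + 1) :=
    esize_list_le (B := 1) fun x _ => le_rfl
  have h2 : (step w o r p c v).length = (p + 1) * r := by
    unfold step
    rw [List.length_map, List.length_range]
  rw [h2] at h1
  omega

theorem esize_table_le (w : List Bool) (o r p : ℕ) (l : List ℕ) (c : List Bool) :
    esize (l.foldl (step w o r p) c) ≤ 3 * ((p + 1) * r) + esize c := by
  rcases List.eq_nil_or_concat l with rfl | ⟨l', i, rfl⟩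
  · simp
  · rw [List.concat_eq_append, List.foldl_append, List.foldl_cons, List.foldl_nil]
    exact (esize_step_le _ _ _ _ _ _).trans (by omega)

theorem PT_table {w : α → List Bool} {o r p m : α → ℕ} (hw : PT A w) (ho : PT A o)
    (hr : PT A r) (hrb : PBd r) (hp : PT A p) (hpb : PBd p) (hm : PT A m) (hmb : PBd m) :
    PT A (fun a => table (w a) (o a) (r a) (p a) (m a)) := by
  unfold table
  have ha : PT A (fun q : α × List Bool × ℕ => q.1) := PT.fst'
  refine PT.foldl (f := fun a => step (w a) (o a) (r a) (p a)) (PT.range hm hmb)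
    (PT.const _) (PT_step (hw.comp ha) (ho.comp ha) (hr.comp ha) (hrb.comp ha) (hp.comp ha)
      (hpb.comp ha) PT.snd'.fst PT.snd'.snd) (b := fun a => 3 * ((p a + 1) * r a) + esize [true])
    (((PBd.const 3).mul ((hpb.add (PBd.const 1)).mul hrb)).add (PBd.const _))
    fun a i => esize_table_le _ _ _ _ _ _

theorem PT_valueAt {w : α → List Bool} {q p r : α → ℕ} (hw : PT A w) (hq : PT A q)
    (hp : PT A p) (hpb : PBd p) (hr : PT A r) (hrb : PBd r) :
    PT A (fun a => valueAt (w a) (q a) (p a) (r a)) := by
  unfold valueAt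
  have h2q : PT A (fun a => 2 * q a) := PT.mul (PT.const 2) hq
  have hm : PT A (fun a => (w a).length - (2 * q a + r a)) :=
    PT.sub (PT.length hw) (PT.add h2q hr)
  have hmb : PBd (fun a => (w a).length - (2 * q a + r a)) :=
    (PBd.length hw).mono fun a => Nat.sub_le _ _
  have ht := PT_table hw (PT.add h2q hr) hr hrb hp hpb hm hmb
  refine PT_sumRange hr hrb (PT_toNat ?_)
  have ha : PT A (fun q : α × ℕ => q.1) := PT.fst'
  exact PT.and (PT_bit (hw.comp ha) (PT.add (h2q.comp ha) PT.snd'))
    (PT_bit (ht.comp ha) (PT.add (PT.mul (hp.comp ha) (hr.comp ha)) PT.snd'))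

theorem PT_value {w : α → List Bool} (hw : PT A w) : PT A (fun a => value (w a)) := by
  unfold value
  have hq : PT A (fun a => root (w a).length) := PT_root (PT.length hw) (PBd.length hw)
  have hqb : PBd (fun a => root (w a).length) := (PBd.length hw).mono fun a => root_le _
  have hp : PT A (fun a => ((w a).take (root (w a).length)).count true) :=
    PT_countTrue (PT.take hw hq)
  have hpb : PBd (fun a => ((w a).take (root (w a).length)).count true) :=
    (PBd.length hw).mono fun a => List.count_le_length.trans (List.length_take_le' _ _)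
  have hρ : PT A (fun a => (((w a).drop (root (w a).length)).take
      (root (w a).length)).count true) := PT_countTrue (PT.take (PT.drop hw hq) hq)
  have hρb : PBd (fun a => (((w a).drop (root (w a).length)).take
      (root (w a).length)).count true) :=
    (PBd.length hw).mono fun a => List.count_le_length.trans
      ((List.length_take_le' _ _).trans (by rw [List.length_drop]; exact Nat.sub_le _ _))
  exact PT_valueAt hw hq hp hpb (PT.mul hp (PT.mul hρ hq)) (hpb.mul (hρb.mul hqb))

/-- The language is decided in polynomial time. -/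
theorem inP_lang : InP lang := by
  have h : PT ∅ (fun w : Raw => decide (value w.w % 2 = 1)) :=
    PT.odd (PT_value (PT.listOfRaw PT.id))
  obtain ⟨g, hg, h⟩ := h
  have h2 : ∃ M : Turing.TM2ComputableInPolyTime (id : List Bool → List Bool)
      Computability.encodeBool (fun w => decide (value w % 2 = 1)),
      ∀ k, Finite (M.tm.Γ k) := by
    refine exists_tm2_of_polyTimeFun _ _ _ g (polyTimeFun_iff.2 hg) fun w => ?_
    exact h (Raw.mk w)
  unfold InP
  have h3 : (fun w => @decide (w ∈ lang) (Classical.propDecidable _)) =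
      fun w => decide (value w % 2 = 1) := by
    funext w
    rw [decide_eq_decide]
    rfl
  rw [h3]
  exact h2

end Vale.Agent.P336.Cyl
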