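import Vale.Agent.P336.R2.H836.Spec
import Vale.Agent.P336.H932.LangP

/-!
# P336: the explicit language of the circuits with limited views is decided in polynomial time
-/

namespace Vale.Agent.P336.R2.H444

open Finset Vale.Agent.Lib.PolyTime

variable {A : Set Word} {α : Type*} [Enc α]

theorem PT_bit {l : α → List Bool} {i : α → ℕ} (hl : PT A l) (hi : PT A i) :
    PT A (fun a => H836.bit (l a) (i a)) :=
  (PT_bitAt hl hi).congr fun _ => rfl

theorem PT_count {l : α → List Bool} (hl : PT A l) : PT A (fun a => (l a).count true) := by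
  refine (PT.length (PT.filter (f := fun _ b => b) hl PT.snd')).congr fun a => ?_
  rw [List.count_eq_length_filter]
  congr 1
  exact List.filter_congr fun b _ => by cases b <;> rfl

theorem PT_mulStep {w c : α → List Bool} {o m h i : α → ℕ} (hw : PT A w) (ho : PT A o)
    (hm : PT A m) (hmb : PBd m) (hh : PT A h) (hhb : PBd h) (hc : PT A c) (hi : PT A i) :
    PT A (fun a => H836.mulStep (w a) (o a) (m a) (h a) (c a) (i a)) := by
  unfold H836.mulStep
  refine PT.map (PT.range hh hhb) (PT.odd ?_)
  refine PT_sumRange (hm.comp PT.fst') (hmb.comp (PT.fst' (A := A))) ?_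
  have ha : PT A (fun p : (α × ℕ) × ℕ => p.1.1) := PT.fst'.fst
  have hd : PT A (fun p : (α × ℕ) × ℕ => p.1.2) := PT.fst'.snd
  have hj : PT A (fun p : (α × ℕ) × ℕ => p.2) := PT.snd'
  exact PT.ite (PT.le hj hd)
    (PT.mul (PT_bit (hw.comp ha) (PT.add (PT.add (ho.comp ha) (PT.mul (hi.comp ha) (hm.comp ha))) hj))
      (PT_bit (hc.comp ha) (PT.sub hd hj))) (PT.const 0)

theorem esize_mulStep_le (w : List Bool) (o m h : ℕ) (c : List Bool) (i : ℕ) :
    esize (H836.mulStep w o m h c i) ≤ 3 * h := by
  have h1 : esize (H836.mulStep w o m h c i) ≤ (H836.mulStep w o m h c i).length * (2 * 1 + 1) :=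
    esize_list_le (B := 1) fun x _ => le_rfl
  have h2 : (H836.mulStep w o m h c i).length = h := by
    unfold H836.mulStep
    rw [List.length_map, List.length_range]
  omega

theorem esize_foldl_le (w : List Bool) (o m h : ℕ) (l : List ℕ) (c : List Bool) :
    esize (l.foldl (H836.mulStep w o m h) c) ≤ 3 * h + esize c := by
  rcases List.eq_nil_or_concat l with rfl | ⟨l', i, rfl⟩
  · simp
  · rw [List.concat_eq_append, List.foldl_append, List.foldl_cons, List.foldl_nil]
    exact (esize_mulStep_le _ _ _ _ _ _).trans (by omega)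

theorem PT_coeffs {w : α → List Bool} {o m h p : α → ℕ} (hw : PT A w) (ho : PT A o)
    (hm : PT A m) (hmb : PBd m) (hh : PT A h) (hhb : PBd h) (hp : PT A p) (hpb : PBd p) :
    PT A (fun a => H836.coeffs (w a) (o a) (m a) (h a) (p a)) := by
  unfold H836.coeffs
  have ha : PT A (fun q : α × List Bool × ℕ => q.1) := PT.fst'
  refine PT.foldl (f := fun a => H836.mulStep (w a) (o a) (m a) (h a)) (PT.range hp hpb)
    (PT.const _) (PT_mulStep (hw.comp ha) (ho.comp ha) (hm.comp ha) (hmb.comp ha) (hh.comp ha)
      (hhb.comp ha) PT.snd'.fst PT.snd'.snd) (b := fun a => 3 * h a + esize [true])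
    (((PBd.const 3).mul hhb).add (PBd.const _)) fun a i => esize_foldl_le _ _ _ _ _ _

theorem PT_value {w : α → List Bool} (hw : PT A w) : PT A (fun a => H836.value (w a)) := by
  unfold H836.value
  have hh : PT A (fun a => (w a).length / 4) := PT.div (PT.length hw) (PT.const 4)
  have hhb : PBd (fun a => (w a).length / 4) :=
    (PBd.length hw).mono fun a => Nat.div_le_self _ _
  have hp : PT A (fun a => ((w a).take ((w a).length / 4)).count true) :=
    PT_count (PT.take hw hh)
  have hpb : PBd (fun a => ((w a).take ((w a).length / 4)).count true) :=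
    (PBd.length hw).mono fun a => List.count_le_length.trans (List.length_take_le' _ _)
  have hm : PT A (fun a => (w a).length / 4 / ((w a).take ((w a).length / 4)).count true) :=
    PT.div hh hp
  have hmb : PBd (fun a => (w a).length / 4 / ((w a).take ((w a).length / 4)).count true) :=
    hhb.mono fun a => Nat.div_le_self _ _
  have hc := PT_coeffs hw (PT.mul (PT.const 2) hh) hm hmb hh hhb hp hpb
  refine PT_sumRange hh hhb ?_
  have h1 : PT A (fun q : α × ℕ => q.1) := PT.fst'
  exact PT.mul (PT_bit (hw.comp h1) (PT.add (hh.comp h1) PT.snd')) (PT_bit (hc.comp h1) PT.snd')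

/-- Membership in the language is computable in polynomial time. -/
theorem PT_lang' {w : α → List Bool} (hw : PT A w) :
    PT A (fun a => decide (H836.value (w a) % 2 = 1)) :=
  PT.odd (PT_value hw)

/-- The language is decided in polynomial time. -/
theorem inP_lang : InP H836.lang := by
  have h : PT ∅ (fun w : Raw => decide (H836.value w.w % 2 = 1)) :=
    PT_lang' (PT.listOfRaw PT.id)
  obtain ⟨g, hg, h⟩ := h
  have h2 : ∃ M : Turing.TM2ComputableInPolyTime (id : List Bool → List Bool)
      Computability.encodeBool (fun w => decide (H836.value w % 2 = 1)),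
      ∀ k, Finite (M.tm.Γ k) := by
    refine exists_tm2_of_polyTimeFun _ _ _ g (polyTimeFun_iff.2 hg) fun w => ?_
    exact h (Raw.mk w)
  unfold InP
  have h3 : (fun w => @decide (w ∈ H836.lang) (Classical.propDecidable _)) =
      fun w => decide (H836.value w % 2 = 1) := by
    funext w
    rw [decide_eq_decide]
    rfl
  rw [h3]
  exact h2

end Vale.Agent.P336.R2.H444
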