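import Vale.Agent.P336.R2.H836.Assembly
import Vale.Agent.P336.R2.H836.LocalViews
import Vale.Agent.P336.R2.H444.Allowed
import Vale.Agent.P336.R2.H842.NumLocal

/-!
# P336: the lower bound for circuits whose bottom gates read few views
-/

namespace Vale.Agent.P336.R2.H444

open Finset H836

/-- **Local views.**  Every depth-three circuit for the slice of length `N` of the language or for
its complement, in which for each middle gate there are views of size at most `k`, every variable
in at most `w` of them, such that every bottom gate of this middle gate only reads variables of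
the union of at most `p` views, has at least `2 ^ (N / Z)` middle gates, `Z` the power `K` of
`2 ^ p (p + 1) ^ w`, as long as `k Z ≤ N`. -/
theorem local_main : ∃ K : ℕ, ∀ N w k p : ℕ, 1 ≤ w → 1 ≤ k → 1 ≤ p →
    k * (2 ^ p * (p + 1) ^ w) ^ K ≤ N → ∀ C : Circuit N, (∀ j ∈ C.top, C.LocalViewed p k w j) →
    ((∀ x, C.Accepts x ↔ slice lang N x = true) ∨ (∀ x, C.Accepts x ↔ slice lang N x = false)) →
    (2 : ℝ) ^ ((N : ℝ) / (((2 ^ p * (p + 1) ^ w) ^ K : ℕ) : ℝ)) ≤ C.middle := by
  classical
  obtain ⟨K, _, h⟩ := H842.numerics_local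
  refine ⟨K, fun N w k p hw hk hp hN C hV hf => ?_⟩
  obtain ⟨hpm, hpN, hm1, hkm, hfin⟩ := h N w k p hw hk hp hN
  obtain ⟨m, hm⟩ : ∃ m, m = N / 4 / (p + 1) := ⟨_, rfl⟩
  rw [← hm] at hpm hm1 hkm
  have h9 : 0 < 2 * (p + 1) ^ w := by positivity
  obtain ⟨a, ha1, ha2, ha3⟩ : ∃ a : ℕ, a ≤ m ∧ m ≤ 2 * (p + 1) ^ w * a ∧
      ∀ b, m ≤ 2 * (p + 1) ^ w * b → a ≤ b := by
    have hex : ∃ b, m ≤ 2 * (p + 1) ^ w * b := ⟨m, Nat.le_mul_of_pos_left m h9⟩
    exact ⟨Nat.find hex, Nat.find_min' hex (Nat.le_mul_of_pos_left m h9), Nat.find_spec hex,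
      fun b hb => Nat.find_min' hex hb⟩
  have hmain : ∀ j ∈ C.top, ∃ (c : Fin C.bottom → Fin (p + 1))
      (A : Fin (p + 1) → Finset (Fin m)), (∀ i, a ≤ (A i).card) ∧
      ∀ b ∈ C.conj j, ∀ l ∈ C.lits b, ∀ v ∈ A (c b), ¬ l.Reads (pos hpm (c b, v)) := by
    intro j hj
    obtain ⟨J, V, hVk, hVw, hVr⟩ := hV j hj
    have hcard : ∀ t, (univ.filter fun v : Fin (p + 1) × Fin m => pos hpm v ∈ V t).card ≤ k := by
      intro t
      refine (Finset.card_le_card_of_injOn (pos hpm) (fun v hv => ?_)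
        ((pos_injective hpm).injOn)).trans (hVk t)
      exact (Finset.mem_filter.1 hv).2
    obtain ⟨c, A, hA, hcA⟩ := exists_allowed (P := p + 1) (by omega) hk hw
      (fun t : Fin J => univ.filter fun v : Fin (p + 1) × Fin m => pos hpm v ∈ V t) hcard
      (fun v => by
        refine le_trans (le_of_eq ?_) (hVw (pos hpm v))
        congr 1
        ext t
        simp) hkm
    have hex : ∀ b ∈ C.conj j, ∃ i : Fin (p + 1),
        ∀ l ∈ C.lits b, ∀ v ∈ A i, ¬ l.Reads (pos hpm (i, v)) := by
      intro b hb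
      obtain ⟨T, hT, hr⟩ := hVr b hb
      obtain ⟨i, hi⟩ : ∃ i, i ∉ T.image c := by
        by_contra hcon
        push Not at hcon
        have h1 : (univ : Finset (Fin (p + 1))).card ≤ (T.image c).card :=
          Finset.card_le_card fun i _ => hcon i
        rw [Finset.card_univ, Fintype.card_fin] at h1
        have h2 : (T.image c).card ≤ T.card := Finset.card_image_le
        omega
      refine ⟨i, fun l hl v hv hre => ?_⟩
      obtain ⟨t, ht, htv⟩ := hr l hl _ hre
      refine hcA t i (fun hit => hi ?_) v hv (Finset.mem_filter.2 ⟨Finset.mem_univ _, htv⟩)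
      rw [hit]
      exact Finset.mem_image_of_mem c ht
    refine ⟨fun b => if hb : ∃ i : Fin (p + 1), ∀ l ∈ C.lits b, ∀ v ∈ A i,
      ¬ l.Reads (pos hpm (i, v)) then hb.choose else 0, A, fun i => ha3 _ (hA i), ?_⟩
    intro b hb
    have hb' := hex b hb
    simp only [dif_pos hb']
    exact hb'.choose_spec
  refine hfin a C.middle (by rw [← hm]; exact ha2) ?_
  rcases hf with hf | hf
  · exact many_gates (by omega) hm hpm hpN hm1 ha1 C hmain true hf
  · exact many_gates (by omega) hm hpm hpN hm1 ha1 C hmain false hf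

end Vale.Agent.P336.R2.H444
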