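import Vale.Agent.P336.R2.H836.Narrow
import Vale.Agent.P336.R2.H836.Assembly
import Vale.Agent.P336.R2.H836.WideViews
import Vale.Agent.P336.R2.H524.Classes
import Vale.Agent.P336.R2.H842.NumWide
import Vale.Agent.P336.R2.H946.Outer

/-!
# P336: the lower bound for circuits whose wide bottom gates have limited views
-/

namespace Vale.Agent.P336.R2.H444

open Finset H836 Expansion

section

variable {N p m : ℕ}

/-- The bottom gate `b` is satisfied. -/
def Sat (C : Circuit N) (p m : ℕ) (b : Fin C.bottom) (s : Fin (N / 4) → Bool)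
    (x : Fin p × Fin m → Bool) : Prop :=
  ∃ l ∈ C.lits b, l.eval (wordOf N p m s x) = true

open Classical in
/-- The variables of the form which a bottom gate reads. -/
noncomputable def readSet (hpm : p * m ≤ N / 4) (C : Circuit N) (b : Fin C.bottom) :
    Finset (Fin p × Fin m) :=
  univ.filter fun v => pos hpm v ∈ C.vars b

theorem wordOf_congr (hpm : p * m ≤ N / 4) (s : Fin (N / 4) → Bool)
    (x z : Fin p × Fin m → Bool) (t : Fin N) (h : ∀ v, t = pos hpm v → x v = z v) :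
    wordOf N p m s x t = wordOf N p m s z t := by
  by_cases ht : ∃ v, t = pos hpm v
  · obtain ⟨v, rfl⟩ := ht
    rw [wordOf_x, wordOf_x]
    exact h v rfl
  · push Not at ht
    have h1 := wordOf_mix hpm s x z univ t fun v _ => ht v
    have h2 : mix univ x z = z := by
      funext v
      unfold mix
      rw [if_pos (mem_univ v)]
    rw [h2] at h1
    exact h1.symm

/-- If a bottom gate is not satisfied by `x₀`, the assignments which do not satisfy it are those
which agree with `x₀` on the variables it reads. -/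
theorem not_sat_iff (hpm : p * m ≤ N / 4) (C : Circuit N) (b : Fin C.bottom)
    (s : Fin (N / 4) → Bool) (x₀ : Fin p × Fin m → Bool) (h0 : ¬ Sat C p m b s x₀)
    (x : Fin p × Fin m → Bool) :
    ¬ Sat C p m b s x ↔ ∀ v ∈ readSet hpm C b, x v = x₀ v := by
  classical
  constructor
  · intro hx v hv
    unfold readSet at hv
    rw [mem_filter] at hv
    obtain ⟨l, hl, hr⟩ := hv.2
    have h1 : l.eval (wordOf N p m s x) ≠ true := fun h => hx ⟨l, hl, h⟩
    have h2 : l.eval (wordOf N p m s x₀) ≠ true := fun h => h0 ⟨l, hl, h⟩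
    cases l with
    | pos i =>
      have hi : pos hpm v = i := hr
      simp only [Lit.eval, ← hi, wordOf_x] at h1 h2
      revert h1 h2
      cases x v <;> cases x₀ v <;> simp
    | neg i =>
      have hi : pos hpm v = i := hr
      simp only [Lit.eval, ← hi, wordOf_x] at h1 h2
      revert h1 h2
      cases x v <;> cases x₀ v <;> simp
    | const c => exact hr.elim
  · rintro hx ⟨l, hl, hle⟩
    refine h0 ⟨l, hl, ?_⟩
    rw [← hle]
    refine l.eval_congr fun t ht => (wordOf_congr hpm s x x₀ t fun v hv => hx v ?_).symm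
    unfold readSet
    rw [mem_filter]
    refine ⟨mem_univ _, l, hl, ?_⟩
    rw [← hv]
    exact ht

theorem card_readSet (hpm : p * m ≤ N / 4) (C : Circuit N) (b : Fin C.bottom) {r : ℕ}
    (h : (C.vars b).encard ≤ r) : (readSet hpm C b).card ≤ r := by
  classical
  have h1 : (((readSet hpm C b).image (pos hpm) : Finset (Fin N)) : Set (Fin N)) ⊆ C.vars b := by
    intro t ht
    rw [mem_coe, mem_image] at ht
    obtain ⟨v, hv, rfl⟩ := ht
    unfold readSet at hv
    exact (mem_filter.1 hv).2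
  have h2 := (Set.encard_le_encard h1).trans h
  rw [Set.encard_coe_eq_coe_finsetCard, card_image_of_injective _ (pos_injective hpm)] at h2
  exact_mod_cast h2

/-- A bottom gate which does not read the changed variables keeps its value. -/
theorem sat_mix (hpm : p * m ≤ N / 4) (C : Circuit N) (b : Fin C.bottom) (i : Fin p)
    (B : Finset (Fin m)) (hB : ∀ v ∈ B, pos hpm (i, v) ∉ C.vars b)
    (s : Fin (N / 4) → Bool) (x z : Fin p × Fin m → Bool) :
    Sat C p m b s (mix (emb i B) x z) ↔ Sat C p m b s x := by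
  have h1 : ∀ l ∈ C.lits b, l.eval (wordOf N p m s (mix (emb i B) x z)) =
      l.eval (wordOf N p m s x) := by
    intro l hl
    refine l.eval_congr fun v hv => wordOf_mix hpm s x z _ v fun w hw hvw => ?_
    obtain ⟨hw1, hw2⟩ := mem_emb.1 hw
    refine hB w.2 hw2 ⟨l, hl, ?_⟩
    have h2 : (i, w.2) = w := by rw [← hw1]
    rw [h2, ← hvw]
    exact hv
  constructor
  · rintro ⟨l, hl, hle⟩
    exact ⟨l, hl, by rw [← h1 l hl]; exact hle⟩
  · rintro ⟨l, hl, hle⟩
    exact ⟨l, hl, by rw [h1 l hl]; exact hle⟩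

open Classical in
/-- The correlation of one middle gate with the form. -/
theorem gate_corr {r a f a₀ : ℕ} {q y β : ℝ} (hp1 : 1 ≤ p) (hpm : p * m ≤ N / 4) (hm1 : 1 ≤ m)
    (hq0 : 0 < q) (hq1 : q ≤ 1) (hrq : (r : ℝ) * q ≤ 1 / 2) (hy0 : 0 < y) (hy1 : y ≤ 1)
    (hβ0 : 0 ≤ β) (hβ : p * (1 / 2 : ℝ) ^ a ≤ β ^ 2 ^ p) (C : Circuit N) (j : Fin C.middle)
    (c : Fin C.bottom → Fin p) (A : Fin p → Finset (Fin m)) (hA : ∀ i, a₀ ≤ (A i).card)
    (hr : ∀ b ∈ C.conj j, (C.vars b).encard ≤ r ∨ ∀ v ∈ A (c b), pos hpm (c b, v) ∉ C.vars b) :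
    |E fun s : Fin (N / 4) → Bool => E fun x : Fin p × Fin m → Bool => sgn2 (form s x) *
      if ∀ b ∈ C.conj j, Sat C p m b s x then (1 : ℝ) else 0| ≤
      2 * (p * 4 ^ (a + f) * ((1 + q / 4) / (1 + q)) ^ a₀ + (1 / 2) ^ f +
        y⁻¹ ^ f * (1 + q * y) ^ (p * m) * β) := by
  have h0 := corr_narrow (h := N / 4) (f := f) hp1 hpm hm1 hq0 hq1 hrq hy0 hy1 A hA
    (fun i s x => if ∀ b ∈ C.conj j, ¬ (C.vars b).encard ≤ r → c b = i → Sat C p m b s x
      then (1 : ℝ) else 0)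
    (fun i s x => by split_ifs <;> simp)
    (fun i s x z => by
      refine if_congr ?_ rfl rfl
      refine forall_congr' fun b => forall_congr' fun hb => forall_congr' fun hn =>
        forall_congr' fun hci => ?_
      subst hci
      exact sat_mix hpm C b (c b) (A (c b)) ((hr b hb).resolve_left hn) s x z)
    (fun s => (univ.filter fun b : Fin C.bottom => b ∈ C.conj j ∧ (C.vars b).encard ≤ r ∧
      ∃ x, ¬ Sat C p m b s x).image Fin.val)
    (fun s i => if hi : ∃ b : Fin C.bottom, (b : ℕ) = i ∧ ∃ x, ¬ Sat C p m b s x then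
      ⟨readSet hpm C hi.choose, hi.choose_spec.2.choose⟩ else ⟨∅, fun _ => false⟩)
    ?_ hβ0 hβ
  · refine le_trans (le_of_eq ?_) h0
    congr 1
    refine congrArg E (funext fun s => congrArg E (funext fun x => ?_))
    congr 1
    have key : ∀ b : Fin C.bottom, (hb : ∃ x, ¬ Sat C p m b s x) →
        ind (if hi : ∃ b' : Fin C.bottom, (b' : ℕ) = (b : ℕ) ∧ ∃ x, ¬ Sat C p m b' s x then
          ⟨readSet hpm C hi.choose, hi.choose_spec.2.choose⟩ else ⟨∅, fun _ => false⟩) x =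
        if Sat C p m b s x then (1 : ℝ) else 0 := by
      intro b hb
      have hi : ∃ b' : Fin C.bottom, (b' : ℕ) = (b : ℕ) ∧ ∃ x, ¬ Sat C p m b' s x := ⟨b, rfl, hb⟩
      rw [dif_pos hi]
      have hbb : hi.choose = b := Fin.ext hi.choose_spec.1
      have h1 := not_sat_iff hpm C hi.choose s _ hi.choose_spec.2.choose_spec x
      unfold ind
      by_cases hs : Sat C p m hi.choose s x
      · rw [if_neg fun h => (h1.2 h) hs, if_pos (by rw [← hbb]; exact hs)]
      · rw [if_pos (h1.1 hs), if_neg (by rw [← hbb]; exact hs)]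
    rw [Finset.prod_image (fun b _ b' _ h => Fin.ext h)]
    rw [Finset.prod_congr rfl fun b hb => key b (mem_filter.1 hb).2.2.2,
      Finset.prod_ite_zero, Finset.prod_ite_zero, Finset.prod_const_one, Finset.prod_const_one]
    by_cases hG : ∀ b ∈ C.conj j, Sat C p m b s x
    · rw [if_pos hG, if_pos fun i _ b hb _ _ => hG b hb,
        if_pos fun b hb => hG b (mem_filter.1 hb).2.1, mul_one]
    · rw [if_neg hG]
      by_cases hw : ∀ i ∈ (univ : Finset (Fin p)), ∀ b ∈ C.conj j, ¬ (C.vars b).encard ≤ r →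
          c b = i → Sat C p m b s x
      · rw [if_pos hw, one_mul, if_neg]
        intro hn
        refine hG fun b hb => ?_
        by_cases hb1 : (C.vars b).encard ≤ r
        · by_cases hb2 : ∃ x, ¬ Sat C p m b s x
          · exact hn b (mem_filter.2 ⟨mem_univ _, hb, hb1, hb2⟩)
          · push Not at hb2
            exact hb2 x
        · exact hw (c b) (mem_univ _) b hb hb1 rfl
      · rw [if_neg hw, zero_mul]
  · intro s i hi
    rw [mem_image] at hi
    obtain ⟨b, hb, rfl⟩ := hi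
    have hb' := (mem_filter.1 hb).2
    have hi : ∃ b' : Fin C.bottom, (b' : ℕ) = (b : ℕ) ∧ ∃ x, ¬ Sat C p m b' s x :=
      ⟨b, rfl, hb'.2.2⟩
    simp only [dif_pos hi]
    have hbb : hi.choose = b := Fin.ext hi.choose_spec.1
    rw [hbb]
    exact card_readSet hpm C b hb'.2.1

/-- **Many middle gates, narrow bottom gates are free.** -/
theorem many_gates_narrow {r a f a₀ : ℕ} {q y β : ℝ} (hp1 : 1 ≤ p) (hm : m = N / 4 / p)
    (hpm : p * m ≤ N / 4) (hp : p ≤ N / 4) (hm1 : 1 ≤ m) (ha : a ≤ m)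
    (hq0 : 0 < q) (hq1 : q ≤ 1) (hrq : (r : ℝ) * q ≤ 1 / 2) (hy0 : 0 < y) (hy1 : y ≤ 1)
    (hβ0 : 0 ≤ β) (hβ : p * (1 / 2 : ℝ) ^ a ≤ β ^ 2 ^ p) (C : Circuit N)
    (hC : ∀ j ∈ C.top, ∃ (c : Fin C.bottom → Fin p) (A : Fin p → Finset (Fin m)),
      (∀ i, a₀ ≤ (A i).card) ∧ ∀ b ∈ C.conj j, (C.vars b).encard ≤ r ∨
        ∀ v ∈ A (c b), pos hpm (c b, v) ∉ C.vars b)
    (e : Bool) (hf : ∀ x, C.Accepts x ↔ slice lang N x = e) :
    1 ≤ (2 * (C.middle : ℝ) + 1) * (2 * (p * 4 ^ (a + f) * ((1 + q / 4) / (1 + q)) ^ a₀ +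
      (1 / 2) ^ f + y⁻¹ ^ f * (1 + q * y) ^ (p * m) * β)) := by
  classical
  have hB0 : 0 ≤ 2 * (p * 4 ^ (a + f) * ((1 + q / 4) / (1 + q)) ^ a₀ +
      (1 / 2) ^ f + y⁻¹ ^ f * (1 + q * y) ^ (p * m) * β) := by positivity
  have hβB : β ≤ 2 * (p * 4 ^ (a + f) * ((1 + q / 4) / (1 + q)) ^ a₀ +
      (1 / 2) ^ f + y⁻¹ ^ f * (1 + q * y) ^ (p * m) * β) := by
    have h1 : (1 : ℝ) ≤ y⁻¹ ^ f := one_le_pow₀ ((one_le_inv₀ hy0).2 hy1)
    have h2 : (1 : ℝ) ≤ (1 + q * y) ^ (p * m) := one_le_pow₀ (by nlinarith)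
    have h3 : β ≤ y⁻¹ ^ f * (1 + q * y) ^ (p * m) * β := by
      have h4 : (1 : ℝ) ≤ y⁻¹ ^ f * (1 + q * y) ^ (p * m) := one_le_mul_of_one_le_of_one_le h1 h2
      nlinarith
    have h5 : 0 ≤ (p : ℝ) * 4 ^ (a + f) * ((1 + q / 4) / (1 + q)) ^ a₀ := by positivity
    have h6 : (0 : ℝ) ≤ (1 / 2) ^ f := by positivity
    linarith
  have h0 := gates_bound (γ := Fin C.middle) (h := N / 4)
    (fun j s x => j ∈ C.top ∧ ∀ b ∈ C.conj j, Sat C p m b s x) (if e = true then 1 else 0) ?_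
    (β := 2 * (p * 4 ^ (a + f) * ((1 + q / 4) / (1 + q)) ^ a₀ +
      (1 / 2) ^ f + y⁻¹ ^ f * (1 + q * y) ^ (p * m) * β)) ?_
    ((abs_bias_le hp1 hpm hm1 ha hβ0 hβ).trans hβB)
  · rw [Fintype.card_fin] at h0
    exact h0
  · intro s x
    have h1 : (∃ j : Fin C.middle, j ∈ C.top ∧ ∀ b ∈ C.conj j, Sat C p m b s x) ↔
        C.Accepts (wordOf N p m s x) := Iff.rfl
    rw [h1, hf]
    have h2 := mem_lang_wordOf hp1 hm hpm hp s x
    unfold slice
    cases e
    · rw [decide_eq_false_iff_not, h2, if_neg (by simp)]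
      rcases zmod2_cases (form s x) with h3 | h3 <;> rw [h3] <;> simp
    · rw [decide_eq_true_iff, h2, if_pos rfl]
  · intro j
    by_cases hj : j ∈ C.top
    · obtain ⟨c, A, hA, hr⟩ := hC j hj
      have h1 := gate_corr (f := f) hp1 hpm hm1 hq0 hq1 hrq hy0 hy1 hβ0 hβ C j c A hA hr
      simp only [hj, true_and]
      exact h1
    · simp only [hj, false_and, if_false, mul_zero]
      have h2 : (E fun _ : Fin (N / 4) → Bool => E fun _ : Fin p × Fin m → Bool => (0 : ℝ)) = 0 := by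
        unfold E
        simp
      rw [h2, abs_zero]
      exact hB0

end

/-- **Wide views.**  Every depth-three circuit for the slice of length `N` of the language or for
its complement, in which every bottom gate reads at most `r` variables or lies in one of the views
of the middle gate (of size at most `k` and total size at most `w N`), has at least
`2 ^ (N / (r 2 ^ (C₀ √w)))` middle gates. -/
theorem wide_main : ∃ C₀ : ℝ, ∀ N w k r : ℕ, 1 ≤ w → 1 ≤ k → 1 ≤ r →
    (k : ℝ) * (2 : ℝ) ^ (C₀ * Real.sqrt w) ≤ N → (r : ℝ) * (2 : ℝ) ^ (C₀ * Real.sqrt w) ≤ N →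
    ∀ C : Circuit N, (∀ j ∈ C.top, C.WideViewed r k (w * N) j) →
    ((∀ x, C.Accepts x ↔ slice lang N x = true) ∨ (∀ x, C.Accepts x ↔ slice lang N x = false)) →
    (2 : ℝ) ^ ((N : ℝ) / (r * (2 : ℝ) ^ (C₀ * Real.sqrt w))) ≤ C.middle := by
  obtain ⟨K, _, hK⟩ := H842.numerics_wide
  obtain ⟨C₀, hC₀⟩ := H946.numerics_outer K
  refine ⟨C₀, fun N w k r hw hk hr hkN hrN C hV hC => ?_⟩
  obtain ⟨p, m, hp4, hm, hpm, hpN, hwN, hkm, hrm, hfin⟩ := hC₀ N w k r hw hk hr hkN hrN
  have hm1 : 1 ≤ m := le_trans (Nat.mul_pos hk (by positivity)) hkm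
  have h9 : 0 < 2 ^ (9 * p) := by positivity
  obtain ⟨a₀, ha2, ha3⟩ : ∃ a : ℕ, m ≤ 2 ^ (9 * p) * a ∧
      ∀ b, m ≤ 2 ^ (9 * p) * b → a ≤ b := by
    have hex : ∃ b, m ≤ 2 ^ (9 * p) * b := ⟨m, Nat.le_mul_of_pos_left m h9⟩
    exact ⟨Nat.find hex, Nat.find_spec hex, fun b hb => Nat.find_min' hex hb⟩
  obtain ⟨a, f, q, y, β, ham, hq0, hq1, hrq, hy0, hy1, hβ0, hβ, hS⟩ := hK p m r a₀ hp4 hr hrm ha2
  have hmain : ∀ j ∈ C.top, ∃ (c : Fin C.bottom → Fin p) (A : Fin p → Finset (Fin m)),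
      (∀ i, a₀ ≤ (A i).card) ∧ ∀ b ∈ C.conj j, (C.vars b).encard ≤ r ∨
        ∀ v ∈ A (c b), pos hpm (c b, v) ∉ C.vars b := by
    classical
    intro j hj
    obtain ⟨J, V, hVk, hVW, hVr⟩ := hV j hj
    have hcard : ∀ t, (univ.filter fun v : Fin p × Fin m => pos hpm v ∈ V t).card ≤
        (V t).card := by
      intro t
      refine Finset.card_le_card_of_injOn (pos hpm) (fun v hv => ?_)
        ((pos_injective hpm).injOn)
      exact (Finset.mem_filter.1 hv).2
    obtain ⟨c, A, hA, hcA⟩ := H524.exists_classes hp4 hk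
      (fun t : Fin J => univ.filter fun v : Fin p × Fin m => pos hpm v ∈ V t)
      (fun t => (hcard t).trans (hVk t))
      ((Finset.sum_le_sum fun t _ => hcard t).trans (hVW.trans hwN)) hkm
    refine ⟨fun b => if h : ∃ t, C.vars b ⊆ V t
      then c h.choose else ⟨0, by omega⟩, A, fun i => ha3 _ (hA i), ?_⟩
    intro b hb
    rcases hVr b hb with h | h
    · exact Or.inl h
    · refine Or.inr fun v hv hr => ?_
      simp only [dif_pos h] at hv hr
      exact hcA h.choose v hv (Finset.mem_filter.2 ⟨Finset.mem_univ _, h.choose_spec hr⟩)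
  refine (Real.rpow_le_rpow_of_exponent_le (by norm_num) hfin).trans (hS C.middle ?_)
  rcases hC with h | h
  · exact many_gates_narrow (by omega) hm hpm hpN hm1 ham hq0 hq1 hrq hy0 hy1 hβ0 hβ C hmain
      true h
  · exact many_gates_narrow (by omega) hm hpm hpN hm1 ham hq0 hq1 hrq hy0 hy1 hβ0 hβ C hmain
      false h

end Vale.Agent.P336.R2.H444
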